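import Vale.Agent.P047D.Defs

/-!
# Amplification: one balanced function beating the square root beats it by any factor
-/

namespace Vale.Agent.P047D

open Finset

section deg

variable {ι κ : Type}

lemma DegLE.of_junta {d : ℕ} {f : (ι → Bool) → ℝ} (S : Finset ι) (hS : S.card ≤ d)
    (h : ∀ x y, (∀ i ∈ S, x i = y i) → f x = f y) : DegLE d f := by
  have hmem : f ∈ juntas ι d := by
    show ∃ T : Finset ι, T.card ≤ d ∧ ∀ x y, (∀ i ∈ T, x i = y i) → f x = f y
    exact ⟨S, hS, h⟩
  exact Submodule.subset_span hmem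

lemma DegLE.mono {d d' : ℕ} (hd : d ≤ d') {f : (ι → Bool) → ℝ} (h : DegLE d f) : DegLE d' f := by
  have hsub : juntas ι d ⊆ juntas ι d' := by
    intro g hg
    obtain ⟨S, hS, hf⟩ := hg
    show ∃ T : Finset ι, T.card ≤ d' ∧ ∀ x y, (∀ i ∈ T, x i = y i) → g x = g y
    exact ⟨S, hS.trans hd, hf⟩
  exact Submodule.span_mono hsub h

lemma DegLE.add {d : ℕ} {f g : (ι → Bool) → ℝ} (hf : DegLE d f) (hg : DegLE d g) :
    DegLE d (f + g) := Submodule.add_mem _ hf hg

lemma DegLE.smul {d : ℕ} (c : ℝ) {f : (ι → Bool) → ℝ} (hf : DegLE d f) : DegLE d (c • f) :=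
  Submodule.smul_mem _ c hf

lemma DegLE.const (d : ℕ) (c : ℝ) : DegLE (ι := ι) d (fun _ => c) :=
  DegLE.of_junta ∅ (by simp) fun _ _ _ => rfl

lemma DegLE.mul [DecidableEq ι] {a b : ℕ} {f g : (ι → Bool) → ℝ} (hf : DegLE a f)
    (hg : DegLE b g) : DegLE (a + b) (f * g) := by
  unfold DegLE at hf hg ⊢
  induction hf using Submodule.span_induction with
  | mem u hu =>
    induction hg using Submodule.span_induction with
    | mem v hv =>
      obtain ⟨S, hS, hu⟩ := hu
      obtain ⟨T, hT, hv⟩ := hv
      refine Submodule.subset_span ⟨S ∪ T, (card_union_le _ _).trans (Nat.add_le_add hS hT), ?_⟩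
      intro x y hxy
      show u x * v x = u y * v y
      rw [hu x y fun i hi => hxy i (mem_union_left _ hi),
        hv x y fun i hi => hxy i (mem_union_right _ hi)]
    | zero => rw [mul_zero]; exact Submodule.zero_mem _
    | add v w _ _ hv hw => rw [mul_add]; exact Submodule.add_mem _ hv hw
    | smul c v _ hv => rw [mul_smul_comm]; exact Submodule.smul_mem _ c hv
  | zero => rw [zero_mul]; exact Submodule.zero_mem _
  | add v w _ _ hv hw => rw [add_mul]; exact Submodule.add_mem _ hv hw
  | smul c v _ hv => rw [smul_mul_assoc]; exact Submodule.smul_mem _ c hv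

/-- Renaming and flipping coordinates keeps the degree. -/
lemma DegLE.comp_map [DecidableEq κ] {d : ℕ} (σ : ι → κ) (q : Bool → Bool) {f : (ι → Bool) → ℝ}
    (hf : DegLE d f) : DegLE d (fun x : κ → Bool => f fun i => q (x (σ i))) := by
  unfold DegLE at hf ⊢
  induction hf using Submodule.span_induction with
  | mem u hu =>
    obtain ⟨S, hS, hu⟩ := hu
    exact Submodule.subset_span ⟨S.image σ, card_image_le.trans hS, fun x y hxy =>
      hu _ _ fun i hi => congrArg q (hxy _ (mem_image_of_mem σ hi))⟩
  | zero => exact Submodule.zero_mem _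
  | add v w _ _ hv hw => exact Submodule.add_mem _ hv hw
  | smul c v _ hv => exact Submodule.smul_mem _ c hv

/-- A junta composed with functions of degree `a`. -/
lemma junta_comp [DecidableEq ι] [DecidableEq κ] {a : ℕ} (z : (κ → Bool) → ι → Bool)
    (hz : ∀ i, DegLE a fun x => sg (z x i)) : ∀ (S : Finset ι) (h : (ι → Bool) → ℝ),
      (∀ x y, (∀ i ∈ S, x i = y i) → h x = h y) → DegLE (S.card * a) fun x => h (z x) := by
  intro S
  induction S using Finset.induction_on with
  | empty =>
    intro h hh
    have e : (fun x => h (z x)) = fun _ => h fun _ => true :=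
      funext fun x => hh _ _ fun i hi => absurd hi (Finset.notMem_empty i)
    rw [e]
    exact DegLE.const _ _
  | insert i S hi ih =>
    intro h hh
    let r : Bool → (ι → Bool) → ℝ := fun b w => h (Function.update w i b)
    have hr : ∀ b w w', (∀ j ∈ S, w j = w' j) → r b w = r b w' := fun b w w' hw => by
      refine hh _ _ fun j hj => ?_
      rcases mem_insert.1 hj with rfl | hj'
      · simp
      · rw [Function.update_of_ne (fun e : j = i => hi (e ▸ hj')),
          Function.update_of_ne (fun e : j = i => hi (e ▸ hj'))]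
        exact hw j hj'
    have e : (fun x => h (z x)) =
        ((1 / 2 : ℝ) • ((fun x => r true (z x)) + fun x => r false (z x))) +
          (fun x => sg (z x i)) *
            ((1 / 2 : ℝ) • ((fun x => r true (z x)) + (-1 : ℝ) • fun x => r false (z x))) := by
      funext x
      have hu : h (z x) = r (z x i) (z x) := by simp [r]
      rw [hu]
      simp only [Pi.add_apply, Pi.mul_apply, Pi.smul_apply, smul_eq_mul, sg]
      rcases Bool.eq_false_or_eq_true (z x i) with hb | hb <;> simp [hb] <;> ring
    have d1 := ih (r true) (hr true)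
    have d2 := ih (r false) (hr false)
    rw [e, card_insert_of_notMem hi, Nat.succ_mul]
    refine DegLE.add ((DegLE.smul _ (d1.add d2)).mono (Nat.le_add_right _ _)) ?_
    rw [Nat.add_comm]
    exact (hz i).mul (DegLE.smul _ (d1.add (d2.smul _)))

lemma DegLE.comp [DecidableEq ι] [DecidableEq κ] {d a : ℕ} (z : (κ → Bool) → ι → Bool)
    (hz : ∀ i, DegLE a fun x => sg (z x i)) {f : (ι → Bool) → ℝ} (hf : DegLE d f) :
    DegLE (d * a) fun x => f (z x) := by
  unfold DegLE at hf ⊢
  induction hf using Submodule.span_induction with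
  | mem u hu =>
    obtain ⟨S, hS, hu⟩ := hu
    exact DegLE.mono (Nat.mul_le_mul_right a hS) (junta_comp z hz S u hu)
  | zero => exact Submodule.zero_mem _
  | add v w _ _ hv hw => exact Submodule.add_mem _ hv hw
  | smul c v _ hv => exact Submodule.smul_mem _ c hv

end deg

lemma sg_not (b : Bool) : sg (!b) = -sg b := by cases b <;> simp [sg]

lemma sg_eq_of (f : ℝ) (h : f = 1 ∨ f = -1) : sg (decide (f = 1)) = f := by
  rcases h with h | h <;> subst h <;> norm_num [sg]

section sums

variable {ι : Type} [Fintype ι] [DecidableEq ι]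

lemma sum_flip (f : (ι → Bool) → ℝ) : ∑ x : ι → Bool, f (fun i => !x i) = ∑ x, f x :=
  Equiv.sum_comp (⟨fun x i => !x i, fun x i => !x i, fun x => by simp, fun x => by simp⟩ :
    (ι → Bool) ≃ (ι → Bool)) f

omit [DecidableEq ι] in
lemma sumSg_flip (x : ι → Bool) : sumSg (fun i => !x i) = -sumSg x := by
  simp [sumSg, sg_not]

lemma sum_sumSg : ∑ x : ι → Bool, sumSg x = 0 := by
  have h := sum_flip (fun x : ι → Bool => sumSg x)
  simp only [sumSg_flip, Finset.sum_neg_distrib] at h
  linarith

omit [DecidableEq ι] in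
lemma sumSg_reindex {κ : Type} [Fintype κ] (e : ι ≃ κ) (x : κ → Bool) :
    sumSg (fun i => x (e i)) = sumSg x :=
  e.sum_comp (fun k => sg (x k))

/-- Reindexing keeps mean, level one and degree. -/
lemma exists_fin_copy {d : ℕ} (B : (ι → Bool) → Bool) (hB : DegLE d fun x => sg (B x)) :
    ∃ (N : ℕ) (B' : (Fin N → Bool) → Bool), DegLE d (fun x => sg (B' x)) ∧
      mean (fun x => sg (B' x)) = mean (fun x => sg (B x)) ∧
      lvl1 (fun x => sg (B' x)) = lvl1 (fun x => sg (B x)) := by
  set e : ι ≃ Fin (Fintype.card ι) := Fintype.equivFin ι with he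
  have hsum : ∀ q : (ι → Bool) → ℝ,
      ∑ x : Fin (Fintype.card ι) → Bool, q (fun i => x (e i)) = ∑ x, q x :=
    fun q => Equiv.sum_comp (e.symm.arrowCongr (Equiv.refl Bool)) q
  refine ⟨Fintype.card ι, fun x => B fun i => x (e i), hB.comp_map e id, ?_, ?_⟩
  · unfold mean
    rw [hsum fun x => sg (B x), Fintype.card_fin]
  · unfold lvl1 mean
    rw [Fintype.card_fin, ← hsum fun x => sg (B x) * sumSg x]
    simp only [sumSg_reindex]

end sums

/-- The odd extension. -/
def oddExt {n : ℕ} (f : (Fin n → Bool) → Bool) (x : Option (Fin n) → Bool) : Bool :=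
  if x none then f (fun i => x (some i)) else !f (fun i => !x (some i))

lemma sum_option {n : ℕ} (q : (Option (Fin n) → Bool) → ℝ) :
    ∑ x, q x = (∑ y : Fin n → Bool, q (fun o => o.elim true y)) +
      ∑ y : Fin n → Bool, q (fun o => o.elim false y) := by
  rw [← Equiv.sum_comp (Equiv.piOptionEquivProd.symm) q, Fintype.sum_prod_type, Fintype.sum_bool]
  congr 1 <;> refine Finset.sum_congr rfl fun y _ => congrArg q (funext fun o => ?_) <;>
    cases o <;> rfl

lemma oddExt_spec {n d : ℕ} (f : (Fin n → Bool) → Bool) (hf : DegLE d fun x => sg (f x)) :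
    DegLE (d + 1) (fun x => sg (oddExt f x)) ∧ mean (fun x => sg (oddExt f x)) = 0 ∧
      lvl1 (fun x => sg (oddExt f x)) = lvl1 (fun x => sg (f x)) + mean (fun x => sg (f x)) := by
  have hflip : DegLE d (fun x : Fin n → Bool => sg (f fun i => !x i)) :=
    hf.comp_map id (fun b => !b)
  refine ⟨?_, ?_, ?_⟩
  · have h1 : DegLE 1 (fun x : Option (Fin n) → Bool => (1 + sg (x none)) / 2) :=
      DegLE.of_junta {none} (by simp) fun x y h => by rw [h none (mem_singleton_self _)]
    have h2 : DegLE 1 (fun x : Option (Fin n) → Bool => (1 - sg (x none)) / 2) :=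
      DegLE.of_junta {none} (by simp) fun x y h => by rw [h none (mem_singleton_self _)]
    have h3 := (h1.mul (hf.comp_map (some : Fin n → Option (Fin n)) id)).add
      ((h2.mul (hflip.comp_map (some : Fin n → Option (Fin n)) id)).smul (-1))
    rw [Nat.add_comm]
    refine (congrArg (DegLE (1 + d)) (funext fun x => ?_)).mpr h3
    simp only [oddExt, Pi.add_apply, Pi.mul_apply, Pi.smul_apply, smul_eq_mul, id]
    cases x none <;> cases f (fun i => x (some i)) <;> cases f (fun i => !x (some i)) <;>
      simp [sg]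
  · unfold mean
    rw [sum_option]
    simp [oddExt, sg_not, sum_flip (fun x => sg (f x))]
  · unfold lvl1 mean
    rw [sum_option, Fintype.card_option, Fintype.card_fin, pow_succ]
    have hs : ∀ (b : Bool) (y : Fin n → Bool),
        sumSg (fun o : Option (Fin n) => o.elim b y) = sg b + sumSg y := fun b y => by
      simp [sumSg, Fintype.sum_option]
    have e1 : ∑ y : Fin n → Bool, sg (oddExt f fun o => o.elim true y) *
        sumSg (fun o : Option (Fin n) => o.elim true y)
        = (∑ y : Fin n → Bool, sg (f y)) + ∑ y : Fin n → Bool, sg (f y) * sumSg y := by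
      rw [← Finset.sum_add_distrib]
      refine Finset.sum_congr rfl fun y _ => ?_
      rw [hs]
      simp only [oddExt, Option.elim_none, Option.elim_some, if_true, sg]
      ring
    have e2 : ∑ y : Fin n → Bool, sg (oddExt f fun o => o.elim false y) *
        sumSg (fun o : Option (Fin n) => o.elim false y)
        = (∑ y : Fin n → Bool, sg (f y)) + ∑ y : Fin n → Bool, sg (f y) * sumSg y := by
      rw [← sum_flip (fun y => sg (oddExt f fun o => o.elim false y) *
        sumSg (fun o : Option (Fin n) => o.elim false y)), ← Finset.sum_add_distrib]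
      refine Finset.sum_congr rfl fun y _ => ?_
      rw [hs, sumSg_flip]
      simp only [oddExt, Option.elim_none, Option.elim_some, Bool.false_eq_true, if_false, sg_not,
        Bool.not_not]
      simp only [sg, Bool.false_eq_true, if_false]
      ring
    rw [e1, e2]
    field_simp
    ring

/-- Composition with a balanced inner function. -/
lemma compose_spec {n m d a : ℕ} (g : (Fin n → Bool) → Bool) (B : (Fin m → Bool) → Bool)
    (hg : DegLE d fun x => sg (g x)) (hB : DegLE a fun x => sg (B x))
    (hg0 : mean (fun x => sg (g x)) = 0) (hB0 : mean (fun x => sg (B x)) = 0) :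
    ∃ F : (Fin n × Fin m → Bool) → Bool, DegLE (d * a) (fun x => sg (F x)) ∧
      mean (fun x => sg (F x)) = 0 ∧
      lvl1 (fun x => sg (F x)) = lvl1 (fun x => sg (B x)) * lvl1 (fun x => sg (g x)) := by
  let z : (Fin n × Fin m → Bool) → Fin n → Bool := fun x i => B fun j => x (i, j)
  refine ⟨fun x => g (z x), hg.comp z fun i => hB.comp_map (fun j => (i, j)) id, ?_⟩
  set P : ℝ := 2 ^ m with hP
  have hP0 : P ≠ 0 := by positivity
  set A : Bool → Finset (Fin m → Bool) := fun b => univ.filter fun t => B t = b with hA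
  have hsplit : ∀ q : (Fin m → Bool) → ℝ,
      ∑ t, q t = ∑ t ∈ A true, q t + ∑ t ∈ A false, q t := fun q => by
    rw [← Finset.sum_fiberwise univ B q, Fintype.sum_bool]
  have hBA : ∀ b, ∀ t ∈ A b, B t = b := fun b t ht => (mem_filter.1 ht).2
  have hsgA : ∀ (q : (Fin m → Bool) → ℝ) b, ∑ t ∈ A b, sg (B t) * q t = sg b * ∑ t ∈ A b, q t :=
    fun q b => by
      rw [Finset.mul_sum]
      exact Finset.sum_congr rfl fun t ht => by rw [hBA b t ht]
  have hcard : ∀ b, ∑ t ∈ A b, (1 : ℝ) = P / 2 := by
    have h1 := hsplit fun _ => 1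
    simp only [sum_const, card_univ, Fintype.card_fun, Fintype.card_bool, Fintype.card_fin,
      nsmul_eq_mul, mul_one, Nat.cast_pow, Nat.cast_ofNat] at h1
    have h2 : ∑ t, sg (B t) * 1 = 0 := by
      unfold mean at hB0
      simpa using hB0
    rw [hsplit, hsgA, hsgA] at h2
    simp only [sum_const, nsmul_eq_mul, mul_one, sg, Bool.false_eq_true, if_true, if_false] at h2
    intro b
    simp only [sum_const, nsmul_eq_mul, mul_one, hP]
    cases b <;> linarith
  set s := lvl1 (fun x => sg (B x)) with hs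
  have hT : ∀ b, ∑ t ∈ A b, sumSg t = sg b * (s * (P / 2)) := by
    have h1 := hsplit sumSg
    rw [sum_sumSg] at h1
    have h2 : ∑ t, sg (B t) * sumSg t = s * P := by
      rw [hs, hP]
      unfold lvl1 mean
      rw [Fintype.card_fin, div_mul_cancel₀ _ (by positivity)]
    rw [hsplit, hsgA, hsgA] at h2
    simp only [sg, Bool.false_eq_true, if_true, if_false] at h2
    intro b
    cases b <;> simp only [sg, Bool.false_eq_true, if_true, if_false] <;> linarith
  let e : (Fin n × Fin m → Bool) ≃ (Fin n → Fin m → Bool) := Equiv.curry _ _ _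
  have hfib : ∀ (w : Fin n → Bool),
      univ.filter (fun y : Fin n → Fin m → Bool => (fun i => B (y i)) = w)
        = Fintype.piFinset fun i => A (w i) := fun w => by
    ext y
    simp [hA, funext_iff]
  have hgen : ∀ (q : (Fin n → Bool) → ℝ) (r : (Fin n → Fin m → Bool) → ℝ),
      ∑ x : Fin n × Fin m → Bool, q (z x) * r (e x)
        = ∑ w, q w * ∑ y ∈ Fintype.piFinset (fun i => A (w i)), r y := by
    intro q r
    have h := Equiv.sum_comp e fun y => q (fun i => B (y i)) * r y
    refine (h.trans (Finset.sum_fiberwise univ (fun y i => B (y i)) _).symm).trans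
      (Finset.sum_congr rfl fun w _ => ?_)
    rw [Finset.mul_sum, hfib w]
    refine Finset.sum_congr rfl fun y hy => ?_
    rw [show (fun i => B (y i)) = w from
      funext fun i => hBA _ _ (Fintype.mem_piFinset.1 hy i)]
  have hone : ∀ w : Fin n → Bool,
      ∑ y ∈ Fintype.piFinset (fun i => A (w i)), (1 : ℝ) = (P / 2) ^ n := by
    intro w
    have h := Finset.prod_univ_sum (fun i => A (w i)) (fun _ _ => (1 : ℝ))
    simp only [hcard, prod_const_one, prod_const, card_univ, Fintype.card_fin] at h
    exact h.symm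
  have hlin : ∀ w : Fin n → Bool,
      ∑ y ∈ Fintype.piFinset (fun i => A (w i)), ∑ i, sumSg (y i)
        = (P / 2) ^ n * (s * sumSg w) := by
    intro w
    rw [Finset.sum_comm]
    unfold sumSg
    rw [Finset.mul_sum, Finset.mul_sum]
    refine Finset.sum_congr rfl fun i _ => ?_
    have h := Finset.prod_univ_sum (fun j => A (w j))
      (fun j t => if j = i then sumSg t else (1 : ℝ))
    simp only [Finset.prod_ite_eq', mem_univ, if_true] at h
    unfold sumSg at h
    rw [← h, ← Finset.mul_prod_erase univ _ (mem_univ i)]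
    have hrest : ∀ j ∈ univ.erase i, ∑ t ∈ A (w j), (if j = i then ∑ k, sg (t k) else (1 : ℝ))
        = P / 2 := fun j hj => by
      simp only [if_neg (ne_of_mem_erase hj), hcard]
    rw [Finset.prod_congr rfl hrest, prod_const, card_erase_of_mem (mem_univ i), card_univ,
      Fintype.card_fin]
    have hi := hT (w i)
    unfold sumSg at hi
    simp only [if_true, hi]
    obtain ⟨n', rfl⟩ := Nat.exists_eq_succ_of_ne_zero (fun hn : n = 0 => Fin.elim0 (hn ▸ i))
    rw [Nat.succ_sub_one, pow_succ]
    ring
  have hden : ((2 : ℝ) ^ (n * m)) = P ^ n := by rw [hP, ← pow_mul, Nat.mul_comm]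
  constructor
  · unfold mean at hg0 ⊢
    have h := hgen (fun w => sg (g w)) fun _ => 1
    simp only [mul_one, hone] at h
    rw [h, ← Finset.sum_mul]
    simp only [div_eq_zero_iff] at hg0
    rcases hg0 with h0 | h0
    · rw [h0]; simp
    · exact absurd h0 (by positivity)
  · unfold lvl1 mean
    have h := hgen (fun w => sg (g w)) fun y => ∑ i, sumSg (y i)
    have hcur : ∀ x : Fin n × Fin m → Bool, ∑ i, sumSg (e x i) = sumSg x := fun x => by
      simp [sumSg, e, Fintype.sum_prod_type]
    simp only [hcur, hlin] at h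
    rw [h, Fintype.card_prod, Fintype.card_fin, Fintype.card_fin, hden, div_pow]
    have e2 : ∀ w : Fin n → Bool, sg (g w) * (P ^ n / 2 ^ n * (s * sumSg w))
        = P ^ n / 2 ^ n * s * (sg (g w) * sumSg w) := fun w => by ring
    simp only [e2, ← Finset.mul_sum]
    field_simp

/-- A junta missing a coordinate of `S` is orthogonal to the character of `S`. -/
lemma fourier_eq_zero {N d : ℕ} {f : (Fin N → Bool) → ℝ} (hf : DegLE d f) (S : Finset (Fin N))
    (hS : d < S.card) : ∑ x, f x * ∏ i ∈ S, sg (x i) = 0 := by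
  unfold DegLE at hf
  induction hf using Submodule.span_induction with
  | mem u hu =>
    obtain ⟨T, hT, hu⟩ := hu
    obtain ⟨i, hiS, hiT⟩ : ∃ i ∈ S, i ∉ T := by
      by_contra hc
      push Not at hc
      exact absurd ((card_le_card fun i hi => hc i hi).trans hT) (not_le.2 hS)
    let φ : (Fin N → Bool) → (Fin N → Bool) := fun x => Function.update x i (!x i)
    refine Finset.sum_ninvolution φ (fun x => ?_) (fun x _ he => ?_) (fun x => mem_univ _)
      (fun x => ?_)
    · have h1 : u (φ x) = u x := hu _ _ fun j hj => by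
        simp only [φ]
        rw [Function.update_of_ne (fun e : j = i => hiT (e ▸ hj))]
      rw [h1, ← Finset.mul_prod_erase S _ hiS, ← Finset.mul_prod_erase S (fun j => sg (φ x j)) hiS]
      have h2 : ∏ j ∈ S.erase i, sg (φ x j) = ∏ j ∈ S.erase i, sg (x j) :=
        Finset.prod_congr rfl fun j hj => by
          simp only [φ]; rw [Function.update_of_ne (ne_of_mem_erase hj)]
      rw [h2]
      simp only [φ, Function.update_self, sg_not]
      ring
    · have := congrFun he i
      simp [φ] at this
    · funext j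
      by_cases hj : j = i
      · subst hj; simp [φ]
      · simp [φ, Function.update_of_ne hj]
  | zero => simp
  | add v w _ _ hv hw => simp [add_mul, Finset.sum_add_distrib, hv, hw]
  | smul c v _ hv => simp [mul_assoc, ← Finset.mul_sum, hv]

theorem amplify (h : ∃ n d : ℕ, ∃ f : (Fin n → Bool) → ℝ, (∀ x, f x = 1 ∨ f x = -1) ∧ DegLE d f ∧
      0 ≤ lvl1 f ∧ (d : ℝ) + 1 < lvl1 f ^ 2) :
    ∀ C : ℝ, ∃ n d : ℕ, 1 ≤ d ∧ ∃ f : (Fin n → Bool) → ℝ, (∀ x, f x = 1 ∨ f x = -1) ∧
      (∀ S : Finset (Fin n), d < S.card →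
        (∑ x, f x * ∏ i ∈ S, (if x i then 1 else -1)) / 2 ^ n = 0) ∧
      C * Real.sqrt d < ∑ i, (∑ x, f x * (if x i then 1 else -1)) / 2 ^ n := by
  obtain ⟨n, d, f, hpm, hdeg, hs0, hs⟩ := h
  set B₀ : (Fin n → Bool) → Bool := fun x => decide (f x = 1) with hB₀
  have hfB : (fun x => sg (B₀ x)) = f := funext fun x => sg_eq_of _ (hpm x)
  -- a function of nonnegative mean
  obtain ⟨B₁, hd1, hl1, hm1⟩ : ∃ B₁ : (Fin n → Bool) → Bool, DegLE d (fun x => sg (B₁ x)) ∧
      lvl1 (fun x => sg (B₁ x)) = lvl1 f ∧ 0 ≤ mean (fun x => sg (B₁ x)) := by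
    rcases le_total 0 (mean f) with hm | hm
    · exact ⟨B₀, by rw [hfB]; exact hdeg, by rw [hfB], by rw [hfB]; exact hm⟩
    · refine ⟨fun x => !B₀ (fun i => !x i), ?_, ?_, ?_⟩
      · have := (hdeg.comp_map id (fun b => !b)).smul (-1)
        refine (congrArg (DegLE d) (funext fun x => ?_)).mpr this
        simp only [sg_not, Pi.smul_apply, smul_eq_mul, id, ← congrFun hfB (fun i => !x i)]
        ring
      · unfold lvl1 mean
        rw [← sum_flip (fun x => f x * sumSg x)]
        simp only [sumSg_flip, sg_not]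
        congr 1
        refine Finset.sum_congr rfl fun x _ => ?_
        rw [← congrFun hfB]
        ring
      · have e : mean (fun x => sg (!B₀ fun i => !x i)) = -mean f := by
          unfold mean
          rw [← sum_flip f, ← neg_div, ← Finset.sum_neg_distrib]
          simp only [sg_not, ← congrFun hfB]
        rw [e]
        linarith
  obtain ⟨hdg, hg0, hgl⟩ := oddExt_spec B₁ hd1
  obtain ⟨m, g, hgd, hgm, hgs⟩ := exists_fin_copy (oddExt B₁) hdg
  rw [hg0] at hgm
  set D := d + 1 with hD
  set s := lvl1 (fun x => sg (g x)) with hsdef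
  have hsge : lvl1 f ≤ s := by rw [hgs, hgl, hl1]; linarith
  have hs2 : (D : ℝ) < s ^ 2 := by
    rw [hD, Nat.cast_add, Nat.cast_one]
    exact hs.trans_le (pow_le_pow_left₀ hs0 hsge 2)
  -- the iterates
  have hit : ∀ k : ℕ, ∃ (N : ℕ) (F : (Fin N → Bool) → Bool), DegLE (D ^ k) (fun x => sg (F x)) ∧
      mean (fun x => sg (F x)) = 0 ∧ lvl1 (fun x => sg (F x)) = s ^ k := by
    intro k
    induction k with
    | zero =>
      refine ⟨1, fun x => x 0, DegLE.of_junta {0} (by simp) fun x y hxy =>
        congrArg sg (hxy 0 (mem_singleton_self _)), ?_, ?_⟩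
      · have e : (fun x : Fin 1 → Bool => sg (x 0)) = sumSg := funext fun x => by simp [sumSg]
        unfold mean
        rw [e, sum_sumSg, zero_div]
      · have e : (fun x : Fin 1 → Bool => sg (x 0) * sumSg x) = fun _ => (1 : ℝ) :=
          funext fun x => by cases hx : x 0 <;> simp [sumSg, sg, hx]
        unfold lvl1 mean
        rw [e]
        simp
    | succ k ih =>
      obtain ⟨N, F, h1, h2, h3⟩ := ih
      obtain ⟨G, g1, g2, g3⟩ := compose_spec g F hgd h1 hgm h2
      obtain ⟨N', G', q1, q2, q3⟩ := exists_fin_copy G g1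
      exact ⟨N', G', by rw [pow_succ, Nat.mul_comm]; exact q1, by rw [q2, g2],
        by rw [q3, g3, h3, pow_succ, hsdef]⟩
  intro C
  have hD0 : 0 < Real.sqrt D := Real.sqrt_pos.2 (by rw [hD]; positivity)
  have hr : 1 < s / Real.sqrt D := by
    rw [lt_div_iff₀ hD0, one_mul, Real.sqrt_lt' (by nlinarith [hs0.trans hsge])]
    exact hs2
  obtain ⟨k, hk⟩ := pow_unbounded_of_one_lt C hr
  obtain ⟨N, F, h1, -, h3⟩ := hit k
  refine ⟨N, D ^ k, Nat.one_le_pow _ _ (by omega), fun x => sg (F x), fun x => ?_,
    fun S hS => ?_, ?_⟩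
  · show sg (F x) = 1 ∨ sg (F x) = -1
    cases F x <;> simp [sg]
  · have := fourier_eq_zero h1 S hS
    unfold sg at this ⊢
    rw [this, zero_div]
  · have e : ∑ i, (∑ x, sg (F x) * (if x i then 1 else -1)) / (2 : ℝ) ^ N = s ^ k := by
      rw [← h3]
      unfold lvl1 mean sumSg
      rw [Fintype.card_fin, ← Finset.sum_div, Finset.sum_comm]
      simp only [sg, Finset.mul_sum]
    have hsq : Real.sqrt ((D ^ k : ℕ) : ℝ) = Real.sqrt D ^ k := by
      rw [Nat.cast_pow, Real.sqrt_eq_iff_eq_sq (by positivity) (by positivity), ← pow_mul,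
        Nat.mul_comm, pow_mul, Real.sq_sqrt (Nat.cast_nonneg _)]
    rw [e, hsq]
    rw [div_pow, lt_div_iff₀ (pow_pos hD0 k)] at hk
    exact hk

end Vale.Agent.P047D
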