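import Vale.Agent.P047D.Defs

/-!
# The bounded trigonometric stand-in for the sign function
-/

namespace Vale.Agent.P047D

open Finset Filter Topology

lemma trigH_eq (t : ℝ) :
    trigH t = (13 * Real.sin t - 16 * Real.sin t ^ 3 + 8 * Real.sin t ^ 5) / 5 := by
  have hc : Real.cos t ^ 2 = 1 - Real.sin t ^ 2 := Real.cos_sq' t
  unfold trigH
  rw [show 5 * t = 2 * t + 3 * t by ring, Real.sin_add, Real.sin_two_mul, Real.cos_three_mul,
    Real.cos_two_mul', Real.sin_three_mul]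
  linear_combination (1 / 10 * (8 * Real.sin t * (Real.cos t ^ 2 + 1 - Real.sin t ^ 2) -
    6 * Real.sin t + (3 * Real.sin t - 4 * Real.sin t ^ 3))) * hc

lemma poly_nonneg {s : ℝ} : 0 ≤ 8 * s ^ 4 + 8 * s ^ 3 - 8 * s ^ 2 - 8 * s + 5 := by
  nlinarith [sq_nonneg (s ^ 2 + s / 2 - 73 / 100), sq_nonneg (s - 9 / 14)]

theorem trigH_abs_le (t : ℝ) : |trigH t| ≤ 1 := by
  rw [trigH_eq]
  set s := Real.sin t with hs
  have h1 : 0 ≤ 1 - s := by linarith [Real.sin_le_one t]
  have h2 : 0 ≤ 1 + s := by linarith [Real.neg_one_le_sin t]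
  have p1 := mul_nonneg h1 (poly_nonneg (s := s))
  have p2 := mul_nonneg h2 (poly_nonneg (s := -s))
  rw [abs_le]
  constructor
  · linear_combination (1 / 5 : ℝ) * p2
  · linear_combination (1 / 5 : ℝ) * p1

theorem trigH_lipschitz (a b : ℝ) : |trigH a - trigH b| ≤ 3 * |a - b| := by
  have h1 := abs_le.1 (Real.abs_sin_sub_sin_le a b)
  have h3 := abs_le.1 (Real.abs_sin_sub_sin_le (3 * a) (3 * b))
  have h5 := abs_le.1 (Real.abs_sin_sub_sin_le (5 * a) (5 * b))
  rw [← mul_sub, abs_mul, abs_of_pos (by norm_num : (0 : ℝ) < 3)] at h3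
  rw [← mul_sub, abs_mul, abs_of_pos (by norm_num : (0 : ℝ) < 5)] at h5
  have h0 := abs_nonneg (a - b)
  unfold trigH
  rw [abs_le]
  constructor <;> linarith [h1.1, h1.2, h3.1, h3.2, h5.1, h5.2]

section moment

variable {ι : Type} [Fintype ι] [DecidableEq ι]

lemma sum_cos_sumSg (θ : ℝ) :
    ∑ x : ι → Bool, Real.cos (θ * sumSg x) = (2 * Real.cos θ) ^ Fintype.card ι := by
  have h := Fintype.prod_sum (fun (_ : ι) (b : Bool) => Complex.exp ((θ * sg b : ℝ) * Complex.I))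
  have e : ∀ x : ι → Bool, ∏ i, Complex.exp ((θ * sg (x i) : ℝ) * Complex.I) =
      Complex.exp ((θ * sumSg x : ℝ) * Complex.I) := fun x => by
    rw [← Complex.exp_sum, ← Finset.sum_mul, ← Complex.ofReal_sum, ← Finset.mul_sum]
    rfl
  have e2 : ∑ b : Bool, Complex.exp ((θ * sg b : ℝ) * Complex.I) = ((2 * Real.cos θ : ℝ) : ℂ) := by
    rw [Fintype.sum_bool, show ((2 * Real.cos θ : ℝ) : ℂ) = 2 * Complex.cos (θ : ℂ) by
      push_cast; ring, Complex.two_cos]
    simp only [sg, if_true, Bool.false_eq_true, if_false]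
    push_cast
    ring_nf
  simp only [e, e2, Finset.prod_const, card_univ] at h
  have h2 := congrArg Complex.re h
  rw [← Complex.ofReal_pow, Complex.ofReal_re, Complex.re_sum] at h2
  simp only [Complex.exp_ofReal_mul_I_re] at h2
  exact h2.symm

lemma sum_sin_sumSg (θ : ℝ) : ∑ x : ι → Bool, Real.sin (θ * sumSg x) * sumSg x =
    2 ^ Fintype.card ι * ((Fintype.card ι : ℝ) * Real.cos θ ^ (Fintype.card ι - 1) * Real.sin θ) := by
  have h1 : HasDerivAt (fun t => ∑ x : ι → Bool, Real.cos (t * sumSg x))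
      (∑ x : ι → Bool, -Real.sin (θ * sumSg x) * (1 * sumSg x)) θ :=
    HasDerivAt.fun_sum fun x _ => ((hasDerivAt_id θ).mul_const (sumSg x)).cos
  have h2 : HasDerivAt (fun t => ∑ x : ι → Bool, Real.cos (t * sumSg x))
      (2 ^ Fintype.card ι * ((Fintype.card ι : ℝ) * Real.cos θ ^ (Fintype.card ι - 1) *
        -Real.sin θ)) θ := by
    simp only [sum_cos_sumSg, mul_pow]
    exact ((Real.hasDerivAt_cos θ).fun_pow (Fintype.card ι)).const_mul _
  have h := h1.unique h2
  simp only [one_mul, neg_mul, mul_neg, Finset.sum_neg_distrib, neg_inj] at h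
  exact h

lemma mean_sin_sumSg (θ : ℝ) : mean (fun x : ι → Bool => Real.sin (θ * sumSg x) * sumSg x) =
    (Fintype.card ι : ℝ) * Real.cos θ ^ (Fintype.card ι - 1) * Real.sin θ := by
  unfold mean
  rw [sum_sin_sumSg, mul_div_cancel_left₀ _ (by positivity)]

end moment

/-- One term of the moment. -/
noncomputable def mterm (c : ℝ) (n : ℕ) : ℝ :=
  Real.sqrt n * Real.cos (c / Real.sqrt n) ^ (n - 1) * Real.sin (c / Real.sqrt n)

lemma eventually_mterm {c A : ℝ} (hc : 0 ≤ c) (hA : A < c * Real.exp (-(c ^ 2 / 2))) :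
    ∀ᶠ n : ℕ in atTop, A ≤ mterm c n := by
  have hlim : Tendsto (fun n : ℕ => c * (1 - c ^ 2 / 6 / n) * (1 + (-(c ^ 2 / 2)) / n) ^ n)
      atTop (𝓝 (c * (1 - 0) * Real.exp (-(c ^ 2 / 2)))) :=
    ((tendsto_const_nhds.mul (tendsto_const_nhds.sub
      (tendsto_const_div_atTop_nhds_zero_nat _)))).mul (Real.tendsto_one_add_div_pow_exp _)
  rw [sub_zero, mul_one] at hlim
  obtain ⟨m, hm⟩ := exists_nat_ge (c ^ 2 + 1)
  filter_upwards [hlim.eventually (eventually_ge_nhds hA), eventually_ge_atTop m] with n hn hnm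
  refine hn.trans ?_
  have hn1 : c ^ 2 + 1 ≤ (n : ℝ) := hm.trans (by exact_mod_cast hnm)
  have hn0 : (0 : ℝ) < n := by linarith [sq_nonneg c]
  set x := c / Real.sqrt n with hx
  have hx0 : 0 ≤ x := by positivity
  have hx2 : x ^ 2 = c ^ 2 / n := by rw [hx, div_pow, Real.sq_sqrt hn0.le]
  have hx1 : x ^ 2 ≤ 1 := by rw [hx2, div_le_one hn0]; linarith
  have hsx : Real.sqrt n * x = c := by rw [hx]; field_simp
  have hcos := Real.one_sub_sq_div_two_le_cos (x := x)
  have hb0 : 0 ≤ 1 + -(c ^ 2 / 2) / n := by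
    rw [neg_div, div_div, mul_comm, ← div_div, ← hx2]; linarith
  have hpow : (1 + -(c ^ 2 / 2) / n) ^ n ≤ Real.cos x ^ (n - 1) := by
    refine (pow_le_pow_left₀ hb0 ?_ n).trans
      (pow_le_pow_of_le_one (by linarith) (Real.cos_le_one x) (Nat.sub_le n 1))
    rw [neg_div, div_div, mul_comm, ← div_div, ← hx2]
    linarith
  have hsin := Real.sin_ge_sub_cube hx0
  have hfirst : c * (1 - c ^ 2 / 6 / n) = Real.sqrt n * (x - x ^ 3 / 6) := by
    rw [show x - x ^ 3 / 6 = x * (1 - x ^ 2 / 6) by ring, ← mul_assoc, hsx, hx2]; ring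
  rw [hfirst, mterm, mul_right_comm]
  refine mul_le_mul (mul_le_mul_of_nonneg_left hpow ?_ |>.trans_eq rfl) hsin ?_ ?_
  all_goals first
    | positivity
    | nlinarith [hx0, hx1, mul_nonneg hx0 (sub_nonneg.2 hx1)]
    | exact mul_nonneg (Real.sqrt_nonneg _) (pow_nonneg (le_trans (by linarith) hcos) _)

theorem trigH_moment : ∀ᶠ n in Filter.atTop, ∀ ι : Type, ∀ [Fintype ι] [DecidableEq ι],
    Fintype.card ι = n →
      73 / 100 * Real.sqrt n ≤ lvl1 (fun x : ι → Bool => trigH (sumSg x / Real.sqrt n)) := by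
  have he : Real.exp 1 < (1.64873 : ℝ) ^ 2 := Real.exp_one_lt_d9.trans_le (by norm_num)
  have hh : Real.exp (1 / 2) ≤ 1.64873 := by
    refine (abs_le_of_sq_le_sq' ?_ (by norm_num)).2
    rw [← Real.exp_nat_mul]
    norm_num
    linarith
  have hA1 : (0.6064 : ℝ) < 1 * Real.exp (-(1 ^ 2 / 2)) := by
    rw [one_mul, one_pow, Real.exp_neg]
    calc (0.6064 : ℝ) < (1.64873 : ℝ)⁻¹ := by norm_num
      _ ≤ _ := inv_anti₀ (Real.exp_pos _) hh
  have hA3 : (0.033 : ℝ) < 3 * Real.exp (-(3 ^ 2 / 2)) := by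
    rw [show -((3 : ℝ) ^ 2 / 2) = -((9 : ℕ) * (1 / 2)) by norm_num, Real.exp_neg, Real.exp_nat_mul]
    calc (0.033 : ℝ) < 3 * ((1.64873 : ℝ) ^ 9)⁻¹ := by norm_num
      _ ≤ _ := mul_le_mul_of_nonneg_left (inv_anti₀ (by positivity)
          (pow_le_pow_left₀ (Real.exp_pos _).le hh 9)) (by norm_num)
  filter_upwards [eventually_mterm zero_le_one hA1, eventually_mterm (by norm_num) hA3,
    eventually_mterm (c := 5) (A := 0) (by norm_num) (by positivity)] with n h1 h3 h5 ι _ _ hn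
  have e : lvl1 (fun x : ι → Bool => trigH (sumSg x / Real.sqrt n))
      = 6 / 5 * mean (fun x : ι → Bool => Real.sin (1 / Real.sqrt n * sumSg x) * sumSg x)
        + 3 / 10 * mean (fun x : ι → Bool => Real.sin (3 / Real.sqrt n * sumSg x) * sumSg x)
        + 1 / 10 * mean (fun x : ι → Bool => Real.sin (5 / Real.sqrt n * sumSg x) * sumSg x) := by
    have hx : ∀ x : ι → Bool, trigH (sumSg x / Real.sqrt n) * sumSg x =
        6 / 5 * (Real.sin (1 / Real.sqrt n * sumSg x) * sumSg x) +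
        3 / 10 * (Real.sin (3 / Real.sqrt n * sumSg x) * sumSg x) +
        1 / 10 * (Real.sin (5 / Real.sqrt n * sumSg x) * sumSg x) := fun x => by
      unfold trigH
      rw [show 1 / Real.sqrt n * sumSg x = sumSg x / Real.sqrt n by ring,
        show 3 / Real.sqrt n * sumSg x = 3 * (sumSg x / Real.sqrt n) by ring,
        show 5 / Real.sqrt n * sumSg x = 5 * (sumSg x / Real.sqrt n) by ring]
      ring
    unfold lvl1 mean
    simp only [hx, Finset.sum_add_distrib, ← Finset.mul_sum]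
    ring
  rw [e, mean_sin_sumSg, mean_sin_sumSg, mean_sin_sumSg, hn]
  have hfac : ∀ c : ℝ, (n : ℝ) * Real.cos (c / Real.sqrt n) ^ (n - 1) * Real.sin (c / Real.sqrt n)
      = Real.sqrt n * mterm c n := fun c => by
    unfold mterm
    rw [← mul_assoc, ← mul_assoc, Real.mul_self_sqrt (Nat.cast_nonneg n)]
  rw [hfac, hfac, hfac]
  nlinarith [mul_le_mul_of_nonneg_left h1 (Real.sqrt_nonneg (n : ℝ)),
    mul_le_mul_of_nonneg_left h3 (Real.sqrt_nonneg (n : ℝ)),
    mul_le_mul_of_nonneg_left h5 (Real.sqrt_nonneg (n : ℝ)), Real.sqrt_nonneg (n : ℝ)]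

section table

variable {ι S : Type} [Fintype ι] [DecidableEq ι]

/-- One factor of the product expansion. -/
noncomputable def zfac (w : S → ℝ) (k : ℝ) (s : S) : ℂ :=
  Complex.exp (Complex.I * ((k * w s : ℝ) : ℂ)) - 1

lemma sum_zfac (w : S → ℝ) (k : ℝ) (A : ι → S) :
    ∑ I : Finset ι, (∏ i ∈ I, zfac w k (A i)).im = Real.sin (k * ∑ i, w (A i)) := by
  rw [← Complex.im_sum, ← Finset.powerset_univ, ← Finset.prod_one_add]
  have e : ∏ i, (1 + zfac w k (A i)) =
      Complex.exp (((k * ∑ i, w (A i) : ℝ) : ℂ) * Complex.I) := by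
    simp only [zfac, add_sub_cancel]
    rw [← Complex.exp_sum, ← Finset.mul_sum, ← Complex.ofReal_sum, ← Finset.mul_sum, mul_comm]
  rw [e, Complex.exp_ofReal_mul_I_im]

omit [Fintype ι] [DecidableEq ι] in
lemma abs_im_prod_zfac (w : S → ℝ) {k X : ℝ} (hk : 0 ≤ k) (A : ι → S) (I : Finset ι)
    (hX : ∀ i, k * |w (A i)| ≤ X) : |(∏ i ∈ I, zfac w k (A i)).im| ≤ X ^ I.card := by
  refine (Complex.abs_im_le_norm _).trans ?_
  rw [norm_prod, ← Finset.prod_const]
  refine Finset.prod_le_prod (fun i _ => norm_nonneg _) fun i _ => ?_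
  refine Real.norm_exp_I_mul_ofReal_sub_one_le.trans ?_
  rw [Real.norm_eq_abs, abs_mul, abs_of_nonneg hk]
  exact hX i

omit [DecidableEq ι] in
lemma sum_tail_le {D : ℕ} {X : ℝ} (hX : 0 ≤ X) :
    ∑ I ∈ Finset.univ.filter (fun I : Finset ι => ¬ I.card ≤ D), X ^ I.card ≤
      Real.exp (Real.exp 1 * X * Fintype.card ι - D) := by
  have h : ∀ I ∈ Finset.univ.filter (fun I : Finset ι => ¬ I.card ≤ D),
      X ^ I.card ≤ Real.exp (-(D : ℝ)) * (Real.exp 1 * X) ^ I.card := by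
    intro I hI
    have hD : (D : ℝ) ≤ I.card := by exact_mod_cast (not_le.1 (mem_filter.1 hI).2).le
    rw [mul_pow, ← Real.exp_nat_mul, mul_one, ← mul_assoc, ← Real.exp_add]
    exact le_mul_of_one_le_left (pow_nonneg hX _) (Real.one_le_exp (by linarith))
  refine (Finset.sum_le_sum h).trans ?_
  refine (Finset.sum_le_univ_sum_of_nonneg fun I => by positivity).trans ?_
  rw [← Finset.mul_sum]
  have hp : ∑ I : Finset ι, (Real.exp 1 * X) ^ I.card
      = (1 + Real.exp 1 * X) ^ Fintype.card ι := by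
    have h2 := Finset.prod_one_add (f := fun _ : ι => Real.exp 1 * X) Finset.univ
    simp only [Finset.prod_const, card_univ, Finset.powerset_univ] at h2
    exact h2.symm
  rw [hp, sub_eq_add_neg, Real.exp_add, mul_comm (Real.exp (Real.exp 1 * X * Fintype.card ι))]
  refine mul_le_mul_of_nonneg_left ?_ (Real.exp_pos _).le
  rw [mul_comm _ (Fintype.card ι : ℝ), Real.exp_nat_mul]
  exact pow_le_pow_left₀ (by positivity) (by linarith [Real.add_one_le_exp (Real.exp 1 * X)]) _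

theorem exists_table {ι S : Type} [Fintype ι] [DecidableEq ι] [Fintype S] (P D : ℕ) (w : S → ℝ)
    (r η : ℝ) (hw : ∀ s, |w s| ≤ r) (hη : 0 < η) (hη1 : η ≤ 1 / 100)
    (htail : Real.exp (15 * r * Fintype.card ι - D) ≤ η)
    (hP : (2 : ℝ) ^ Fintype.card ι ≤ η * P) :
    ∃ c : Finset ι → (ι → S) → ℤ, (∀ I A A', (∀ i ∈ I, A i = A' i) → c I A = c I A') ∧
      ∀ A, 0 ≤ ∑ I ∈ Finset.univ.filter (fun I => I.card ≤ D), c I A ∧
        ∑ I ∈ Finset.univ.filter (fun I => I.card ≤ D), c I A ≤ P ∧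
        |((∑ I ∈ Finset.univ.filter (fun I => I.card ≤ D), c I A : ℤ) : ℝ) / P -
          (1 / 2 + trigH (∑ i, w (A i)) / 2)| ≤ 6 * η := by
  let T : Finset ι → (ι → S) → ℝ := fun I A =>
    6 / 5 * (∏ i ∈ I, zfac w 1 (A i)).im + 3 / 10 * (∏ i ∈ I, zfac w 3 (A i)).im +
      1 / 10 * (∏ i ∈ I, zfac w 5 (A i)).im
  let g : Finset ι → (ι → S) → ℝ := fun I A =>
    (if I = ∅ then 1 / 2 else 0) + (1 - 4 * η) / 2 * T I A
  refine ⟨fun I A => round ((P : ℝ) * g I A), fun I A A' h => ?_, fun A => ?_⟩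
  · have hp : ∀ k, ∏ i ∈ I, zfac w k (A i) = ∏ i ∈ I, zfac w k (A' i) := fun k =>
      Finset.prod_congr rfl fun i hi => by rw [h i hi]
    simp only [g, T, hp]
  set F := Finset.univ.filter (fun I : Finset ι => I.card ≤ D) with hF
  set K : ℝ := ((∑ I ∈ F, round ((P : ℝ) * g I A) : ℤ) : ℝ) with hK
  set H := trigH (∑ i, w (A i)) with hH
  have hP0 : (0 : ℝ) < P := by
    have h2 : (0 : ℝ) < 2 ^ Fintype.card ι := by positivity
    exact pos_of_mul_pos_right (h2.trans_le hP) hη.le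
  -- rounding
  have hround : |K - P * ∑ I ∈ F, g I A| ≤ η * P := by
    rw [hK, Int.cast_sum, Finset.mul_sum, ← Finset.sum_sub_distrib]
    refine (Finset.abs_sum_le_sum_abs _ _).trans ?_
    calc ∑ I ∈ F, |(round ((P : ℝ) * g I A) : ℝ) - P * g I A|
        ≤ ∑ _I ∈ F, (1 : ℝ) := Finset.sum_le_sum fun I _ => by
          rw [abs_sub_comm]; linarith [abs_sub_round ((P : ℝ) * g I A)]
      _ = F.card := by simp
      _ ≤ (2 : ℝ) ^ Fintype.card ι := by
          have h2 := Finset.card_le_univ F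
          rw [Fintype.card_finset] at h2
          exact_mod_cast h2
      _ ≤ η * P := hP
  -- the full expansion
  have hT : ∑ I : Finset ι, T I A = H := by
    simp only [T, Finset.sum_add_distrib, ← Finset.mul_sum, sum_zfac, hH, trigH, one_mul]
  have hfull : ∑ I : Finset ι, g I A = 1 / 2 + (1 - 4 * η) / 2 * H := by
    simp only [g, Finset.sum_add_distrib, ← Finset.mul_sum, hT, Finset.sum_ite_eq', mem_univ,
      if_true]
  -- the tail
  have htl : |∑ I ∈ Finset.univ.filter (fun I : Finset ι => ¬ I.card ≤ D), g I A| ≤ 4 / 5 * η := by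
    set X := 5 * max r 0 with hX
    have hX0 : 0 ≤ X := by positivity
    have hk : ∀ k : ℝ, 0 ≤ k → k ≤ 5 → ∀ i, k * |w (A i)| ≤ X := fun k h0 h5 i =>
      mul_le_mul h5 ((hw _).trans (le_max_left _ _)) (abs_nonneg _) (by norm_num)
    have hg : ∀ I ∈ Finset.univ.filter (fun I : Finset ι => ¬ I.card ≤ D),
        |g I A| ≤ 4 / 5 * X ^ I.card := by
      intro I hI
      have hne : I ≠ ∅ := by
        intro h0
        simp [h0] at hI
      have a1 := abs_le.1 (abs_im_prod_zfac w zero_le_one A I (hk 1 zero_le_one (by norm_num)))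
      have a3 := abs_le.1 (abs_im_prod_zfac w (k := 3) (by norm_num) A I
        (hk 3 (by norm_num) (by norm_num)))
      have a5 := abs_le.1 (abs_im_prod_zfac w (k := 5) (by norm_num) A I
        (hk 5 (by norm_num) le_rfl))
      have hTb : |T I A| ≤ 8 / 5 * X ^ I.card := by
        simp only [T, abs_le]
        constructor <;> linarith [a1.1, a1.2, a3.1, a3.2, a5.1, a5.2]
      simp only [g, if_neg hne, zero_add, abs_mul]
      rw [abs_of_nonneg (show (0 : ℝ) ≤ (1 - 4 * η) / 2 by linarith)]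
      nlinarith [abs_nonneg (T I A), mul_nonneg hη.le (abs_nonneg (T I A))]
    refine (Finset.abs_sum_le_sum_abs _ _).trans ((Finset.sum_le_sum hg).trans ?_)
    rw [← Finset.mul_sum]
    refine mul_le_mul_of_nonneg_left (((sum_tail_le hX0).trans ?_).trans htail) (by norm_num)
    refine Real.exp_le_exp.2 ?_
    have hrq : max r 0 * (Fintype.card ι : ℝ) = r * Fintype.card ι := by
      rcases isEmpty_or_nonempty ι with hι | hι
      · simp
      · obtain ⟨i⟩ := hι
        rw [max_eq_left ((abs_nonneg _).trans (hw (A i)))]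
    have he3 : Real.exp 1 ≤ 3 := by linarith [Real.exp_one_lt_d9]
    have h0 : 0 ≤ max r 0 * (Fintype.card ι : ℝ) := by positivity
    rw [hX, mul_assoc, mul_assoc, mul_assoc]
    nlinarith [mul_le_mul_of_nonneg_right he3 (by positivity : 0 ≤ 5 * (max r 0 * (Fintype.card ι : ℝ)))]
  have hsplit : ∑ I ∈ F, g I A + ∑ I ∈ Finset.univ.filter (fun I : Finset ι => ¬ I.card ≤ D), g I A
      = ∑ I : Finset ι, g I A := Finset.sum_filter_add_sum_filter_not _ _ _
  obtain ⟨hH1, hH2⟩ := abs_le.1 (trigH_abs_le (∑ i, w (A i)))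
  obtain ⟨hr1, hr2⟩ := abs_le.1 hround
  obtain ⟨ht1, ht2⟩ := abs_le.1 htl
  have hHη1 : -η ≤ η * H := by nlinarith
  have hHη2 : η * H ≤ η := by nlinarith
  have hlo : (1 / 5 : ℝ) * η ≤ ∑ I ∈ F, g I A - η := by nlinarith
  have hhi : ∑ I ∈ F, g I A + η ≤ 1 := by nlinarith
  refine ⟨?_, ?_, ?_⟩
  · have : 0 ≤ K := by nlinarith [mul_le_mul_of_nonneg_left hlo hP0.le]
    rw [hK] at this
    exact_mod_cast this
  · have : K ≤ P := by nlinarith [mul_le_mul_of_nonneg_left hhi hP0.le]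
    rw [hK] at this
    exact_mod_cast this
  · show |K / P - (1 / 2 + H / 2)| ≤ 6 * η
    rw [abs_le, le_sub_iff_add_le, sub_le_iff_le_add, le_div_iff₀ hP0, div_le_iff₀ hP0]
    have q1 : ∑ I ∈ F, g I A ≤ 1 / 2 + H / 2 + 4 * η := by linarith
    have q2 : 1 / 2 + H / 2 - 4 * η ≤ ∑ I ∈ F, g I A := by linarith
    constructor <;> nlinarith [mul_le_mul_of_nonneg_left q1 hP0.le,
      mul_le_mul_of_nonneg_left q2 hP0.le]

end table

end Vale.Agent.P047D
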