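import Vale.Agent.P047D.Select
import Vale.Agent.P047D.Trig
import Vale.Agent.P047D.Amplify

namespace Vale.Agent.P047D

open Finset

/-- The value of a state. -/
noncomputable def stateVal (L : ℝ) (b : ℕ) : Option (Fin (b + 1)) → ℝ
  | none => 0
  | some a => if L * Real.sqrt b < |2 * ((a : ℕ) : ℝ) - b| then 0 else 2 * ((a : ℕ) : ℝ) - b

theorem sumSg_eq_wt {b : ℕ} (y : Fin b → Bool) : sumSg y = 2 * ((wt y : ℕ) : ℝ) - b := by
  have h : ∀ i, sg (y i) = 2 * (if y i = true then (1 : ℝ) else 0) - 1 := fun i => by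
    cases y i <;> norm_num [sg]
  simp only [sumSg, h, sum_sub_distrib, ← mul_sum, sum_boole, wt, sum_const, card_univ,
    Fintype.card_fin, nsmul_eq_mul, mul_one]

theorem stateVal_stateOf {b : ℕ} (L : ℝ) (J : Finset (Fin b → Bool)) (y : Fin b → Bool) :
    stateVal L b (stateOf J y) = clipV L J y := by
  by_cases h : y ∈ J <;> simp [stateOf, clipV, stateVal, h, sumSg_eq_wt]

theorem abs_stateVal_le {b : ℕ} (L : ℝ) (hL : 0 ≤ L) (s : Option (Fin (b + 1))) :
    |stateVal L b s| ≤ L * Real.sqrt b := by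
  have h0 : 0 ≤ L * Real.sqrt b := by positivity
  cases s with
  | none => simpa [stateVal] using h0
  | some a =>
    simp only [stateVal]
    split_ifs with h
    · simpa using h0
    · exact not_lt.1 h

theorem mean_abs_sumSg_le (q b : ℕ) :
    mean (fun x : Fin q × Fin b → Bool => |sumSg x|) ≤ Real.sqrt ((q : ℝ) * b) := by
  have h := mean_cauchy' (fun _ : Fin q × Fin b → Bool => (1 : ℝ)) (fun x => |sumSg x|)
  simp only [one_mul, one_pow, mean_one', sq_abs, mean_sumSg_sq_prod] at h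
  exact Real.le_sqrt_of_sq_le h

/-- If the profile function is close to the trigonometric stand-in, its level-one sum is large. -/
theorem lvl1_ge {q b : ℕ} (L η γ : ℝ) (hL : 0 < L) (hη : 0 ≤ η) (hγ : 0 ≤ γ)
    (J : Finset (Fin b → Bool)) (hJ : (J.card : ℝ) ≤ γ * 2 ^ b)
    (g : (Fin q × Fin b → Bool) → ℝ)
    (hg : ∀ x, |g x - trigH ((∑ i, clipV L J (blockOf x i)) / Real.sqrt ((q * b : ℕ) : ℝ))| ≤ η) :
    lvl1 (fun x : Fin q × Fin b → Bool => trigH (sumSg x / Real.sqrt ((q * b : ℕ) : ℝ)))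
      - η * Real.sqrt ((q * b : ℕ) : ℝ)
      - 3 * Real.sqrt ((q * b : ℕ) : ℝ) * Real.sqrt (6 / L ^ 2 + 2 * q * Real.sqrt (3 * γ))
      ≤ lvl1 g := by
  rw [Nat.cast_mul] at hg ⊢
  set R := Real.sqrt ((q : ℝ) * b) with hR
  have hR0 : 0 ≤ R := Real.sqrt_nonneg _
  have key : ∀ x : Fin q × Fin b → Bool, trigH (sumSg x / R) * sumSg x
      ≤ g x * sumSg x + (η * |sumSg x|
        + 3 / R * (|(∑ i, clipV L J (blockOf x i)) - sumSg x| * |sumSg x|)) := by
    intro x
    set V := ∑ i, clipV L J (blockOf x i)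
    have h1 : |trigH (sumSg x / R) - g x| ≤ η + 3 / R * |V - sumSg x| := by
      calc |trigH (sumSg x / R) - g x|
          ≤ |trigH (sumSg x / R) - trigH (V / R)| + |trigH (V / R) - g x| := abs_sub_le _ _ _
        _ ≤ 3 * |sumSg x / R - V / R| + η :=
            add_le_add (trigH_lipschitz _ _) (by rw [abs_sub_comm]; exact hg x)
        _ = η + 3 / R * |V - sumSg x| := by
            rw [← sub_div, abs_div, abs_of_nonneg hR0, abs_sub_comm]; ring
    have h2 : (trigH (sumSg x / R) - g x) * sumSg x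
        ≤ (η + 3 / R * |V - sumSg x|) * |sumSg x| :=
      (le_abs_self _).trans (by rw [abs_mul]; exact mul_le_mul_of_nonneg_right h1 (abs_nonneg _))
    linarith
  have h := mean_le' key
  rw [mean_add', mean_add', mean_mul_left', mean_mul_left'] at h
  have hS := mean_abs_sumSg_le q b
  have hD := clip_err q b L γ hL hγ J hJ
  have hq : 3 / R * ((q : ℝ) * b * Real.sqrt (6 / L ^ 2 + 2 * q * Real.sqrt (3 * γ)))
      = 3 * R * Real.sqrt (6 / L ^ 2 + 2 * q * Real.sqrt (3 * γ)) := by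
    have e : (q : ℝ) * b = R * R := (Real.mul_self_sqrt (by positivity)).symm
    rcases eq_or_ne R 0 with h0 | h0
    · simp [h0]
    · rw [e]; field_simp
  have h3 : 3 / R * mean (fun x : Fin q × Fin b → Bool =>
      |(∑ i, clipV L J (blockOf x i)) - sumSg x| * |sumSg x|)
      ≤ 3 * R * Real.sqrt (6 / L ^ 2 + 2 * q * Real.sqrt (3 * γ)) :=
    (mul_le_mul_of_nonneg_left hD (by positivity)).trans hq.le
  have h4 := mul_le_mul_of_nonneg_left hS hη
  unfold lvl1 at *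
  linarith

/-- The parameters: many blocks, and junk that is negligible against them. -/
theorem exists_params : ∃ (q : ℕ) (γ : ℝ), 0 < q ∧ 0 < γ ∧ γ < 1 ∧
    Real.exp (15 * (10000 / Real.sqrt q) * q - (⌊(q : ℝ) / 200⌋₊ : ℝ)) ≤ 1 / 10000 ∧
    Real.sqrt (6 / (10000 : ℝ) ^ 2 + 2 * q * Real.sqrt (3 * γ)) ≤ 4 / 10000 := by
  obtain ⟨N, hN⟩ := exists_nat_ge (40000000 : ℝ)
  have hN0 : (0 : ℝ) < N := by linarith
  set qr : ℝ := (N : ℝ) ^ 2 with hqr
  have hq1 : (1 : ℝ) ≤ qr := by nlinarith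
  refine ⟨N ^ 2, min (1 / 2) (3 / (qr * (10000 : ℝ) ^ 2) ^ 2), pow_pos (by exact_mod_cast hN0) 2,
    lt_min (by norm_num) (by positivity), lt_of_le_of_lt (min_le_left _ _) (by norm_num), ?_, ?_⟩
  · have hs : Real.sqrt ((N ^ 2 : ℕ) : ℝ) = N := by
      rw [Nat.cast_pow, Real.sqrt_sq hN0.le]
    rw [hs, Nat.cast_pow, ← hqr]
    have hfl := Nat.lt_floor_add_one (qr / 200)
    have e : 15 * (10000 / (N : ℝ)) * qr = 150000 * N := by rw [hqr]; field_simp; ring
    have hx : 10000 ≤ -(15 * (10000 / (N : ℝ)) * qr - (⌊qr / 200⌋₊ : ℝ)) := by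
      rw [e]
      nlinarith
    have h2 := Real.add_one_le_exp (-(15 * (10000 / (N : ℝ)) * qr - (⌊qr / 200⌋₊ : ℝ)))
    rw [← neg_neg (15 * (10000 / (N : ℝ)) * qr - (⌊qr / 200⌋₊ : ℝ)), Real.exp_neg, one_div]
    exact inv_anti₀ (by norm_num) (by linarith)
  · have h1 : Real.sqrt (3 * min (1 / 2) (3 / (qr * (10000 : ℝ) ^ 2) ^ 2))
        ≤ 3 / (qr * (10000 : ℝ) ^ 2) := by
      rw [Real.sqrt_le_left (by positivity)]
      calc 3 * min (1 / 2) (3 / (qr * (10000 : ℝ) ^ 2) ^ 2)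
          ≤ 3 * (3 / (qr * (10000 : ℝ) ^ 2) ^ 2) := by gcongr; exact min_le_right _ _
        _ = _ := by ring
    rw [Real.sqrt_le_left (by norm_num), Nat.cast_pow, ← hqr]
    have h2 := mul_le_mul_of_nonneg_left h1 (show (0 : ℝ) ≤ 2 * qr by positivity)
    have e : 2 * qr * (3 / (qr * (10000 : ℝ) ^ 2)) = 6 / (10000 : ℝ) ^ 2 := by
      field_simp; ring
    rw [e] at h2
    norm_num at h2 ⊢
    linarith

/-- One Boolean function whose level-one sum exceeds the square root of its degree plus one. -/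
theorem exists_beats_sqrt : ∃ n d : ℕ, ∃ f : (Fin n → Bool) → ℝ,
    (∀ x, f x = 1 ∨ f x = -1) ∧ DegLE d f ∧ 0 ≤ lvl1 f ∧ (d : ℝ) + 1 < lvl1 f ^ 2 := by
  classical
  obtain ⟨q, γ, hq, hγ, hγ1, htail, herr⟩ := exists_params
  obtain ⟨P, hPge, hPp⟩ := Nat.exists_infinite_primes (⌈(10000 : ℝ) * 2 ^ q⌉₊ + 3)
  haveI : Fact P.Prime := ⟨hPp⟩
  haveI : NeZero P := ⟨hPp.ne_zero⟩
  have hP2 : (2 : ℝ) ^ Fintype.card (Fin q) ≤ 1 / 10000 * P := by
    have : ((⌈(10000 : ℝ) * 2 ^ q⌉₊ + 3 : ℕ) : ℝ) ≤ P := by exact_mod_cast hPge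
    push_cast at this
    have := Nat.le_ceil ((10000 : ℝ) * 2 ^ q)
    rw [Fintype.card_fin]
    linarith
  have hblock := exists_block P (by omega) γ (1 / 200) hγ hγ1 (by norm_num)
  have hn : Filter.Tendsto (fun b : ℕ => q * b) Filter.atTop Filter.atTop :=
    Filter.tendsto_atTop_mono (fun b => Nat.le_mul_of_pos_left b hq) Filter.tendsto_id
  obtain ⟨b, ⟨J, u, hJ, hu⟩, hmom, hb⟩ :=
    (hblock.and ((hn.eventually trigH_moment).and (Filter.eventually_ge_atTop 1000))).exists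
  set R := Real.sqrt ((q * b : ℕ) : ℝ) with hR
  have hn0 : 1000 ≤ q * b := le_trans hb (Nat.le_mul_of_pos_left b hq)
  have hn' : (1000 : ℝ) ≤ ((q * b : ℕ) : ℝ) := by exact_mod_cast hn0
  have hR0 : 0 < R := Real.sqrt_pos.2 (by linarith)
  set Dq := ⌊(q : ℝ) / 200⌋₊ with hDq
  have hw : ∀ s : Option (Fin (b + 1)), |stateVal 10000 b s / R| ≤ 10000 / Real.sqrt q := by
    intro s
    rw [abs_div, abs_of_pos hR0, div_le_iff₀ hR0]
    refine (abs_stateVal_le 10000 (by norm_num) s).trans (le_of_eq ?_)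
    rw [hR, Nat.cast_mul, Real.sqrt_mul (by positivity)]
    field_simp
  obtain ⟨c, hc, htab⟩ := exists_table (ι := Fin q) P Dq (fun s => stateVal 10000 b s / R)
    (10000 / Real.sqrt q) (1 / 10000) hw (by norm_num) (by norm_num)
    (by rw [Fintype.card_fin]; exact htail) hP2
  obtain ⟨f, hf, hdeg, hlvl⟩ := exists_select (⌊(1 / 2 + 1 / 200) * (b : ℝ)⌋₊) Dq J u hu c hc
    (fun A => (htab A).1) (fun A => (htab A).2.1)
  set g : (Fin q × Fin b → Bool) → ℝ := fun x => 2 *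
    (((∑ I ∈ univ.filter (fun I => I.card ≤ Dq), c I (profile J x) : ℤ) : ℝ) / P) - 1 with hg
  have hclose : ∀ x, |g x - trigH ((∑ i, clipV 10000 J (blockOf x i)) / R)| ≤ 12 / 10000 := by
    intro x
    have e : (∑ i, stateVal 10000 b (profile J x i) / R)
        = (∑ i, clipV 10000 J (blockOf x i)) / R := by
      simp only [profile, stateVal_stateOf, sum_div]
    have h := (htab (profile J x)).2.2
    rw [e, abs_le] at h
    simp only [hg]
    rw [abs_le]
    constructor <;> linarith [h.1, h.2]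
  have hge := lvl1_ge 10000 (12 / 10000) γ (by norm_num) (by norm_num) hγ.le J hJ g hclose
  have hm := hmom (Fin q × Fin b) (by simp)
  have hS : 727 / 1000 * R ≤ lvl1 f := by
    have := mul_le_mul_of_nonneg_left herr (show 0 ≤ 3 * R by positivity)
    linarith
  have hd : ((max (q * ⌊(1 / 2 + 1 / 200) * (b : ℝ)⌋₊) (Dq * b) : ℕ) : ℝ)
      ≤ 505 / 1000 * ((q * b : ℕ) : ℝ) := by
    have h1 := Nat.floor_le (show (0 : ℝ) ≤ (1 / 2 + 1 / 200) * b by positivity)
    have h2 := Nat.floor_le (show (0 : ℝ) ≤ (q : ℝ) / 200 by positivity)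
    push_cast
    refine max_le ?_ ?_
    · calc (q : ℝ) * (⌊(1 / 2 + 1 / 200) * (b : ℝ)⌋₊ : ℝ)
          ≤ q * ((1 / 2 + 1 / 200) * b) := mul_le_mul_of_nonneg_left h1 (by positivity)
        _ = _ := by ring
    · rw [hDq]
      calc (⌊(q : ℝ) / 200⌋₊ : ℝ) * b ≤ q / 200 * b :=
            mul_le_mul_of_nonneg_right h2 (by positivity)
        _ ≤ _ := by nlinarith [show (0 : ℝ) ≤ q * b by positivity]
  have hRsq : R * R = ((q * b : ℕ) : ℝ) := Real.mul_self_sqrt (by positivity)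
  set e := Fintype.equivFin (Fin q × Fin b)
  refine ⟨_, max (q * ⌊(1 / 2 + 1 / 200) * (b : ℝ)⌋₊) (Dq * b),
    fun y => f (fun k => y (e k)), fun y => hf _, DegLE.comap' e hdeg, ?_⟩
  have htr : lvl1 (fun y : Fin (Fintype.card (Fin q × Fin b)) → Bool => f (fun k => y (e k)))
      = lvl1 f := by
    simp only [lvl1, mean, Fintype.card_fin]
    congr 1
    refine Fintype.sum_equiv (Equiv.arrowCongr e.symm (Equiv.refl Bool)) _ _ fun y => ?_
    simp only [sumSg, Equiv.arrowCongr_apply, Equiv.coe_refl, Equiv.symm_symm, Function.comp_def,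
      id]
    rw [e.sum_comp (fun i => sg (y i))]
    rfl
  rw [htr]
  refine ⟨le_trans (by positivity) hS, ?_⟩
  have h5 := pow_le_pow_left₀ (by positivity) hS 2
  nlinarith

/-- The square-root bound fails for every constant. -/
theorem sqrt_bound_fails : ∀ C : ℝ, ∃ n d : ℕ, 1 ≤ d ∧ ∃ f : (Fin n → Bool) → ℝ,
    (∀ x, f x = 1 ∨ f x = -1) ∧
    (∀ S : Finset (Fin n), d < S.card →
      (∑ x, f x * ∏ i ∈ S, (if x i then 1 else -1)) / 2 ^ n = 0) ∧
    C * Real.sqrt d < ∑ i, (∑ x, f x * (if x i then 1 else -1)) / 2 ^ n :=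
  amplify exists_beats_sqrt

end Vale.Agent.P047D
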