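import Vale.Agent.P047D.Defs

namespace Vale.Agent.P047D

open Finset

/-- A monomial in the coordinates. -/
def monom {V : Type} [Fintype V] {P : ℕ} (α : V → ℕ) (x : V → ZMod P) : ZMod P := ∏ v, x v ^ α v

variable {V : Type} [Fintype V] [DecidableEq V] {P : ℕ} [Fact P.Prime]

/-- Two-point functions of total degree at most `k`. -/
def lowDeg (V : Type) [Fintype V] (P k : ℕ) :
    Submodule (ZMod P) ((V → ZMod P) × (V → ZMod P) → ZMod P) :=
  Submodule.span (ZMod P) {F | ∃ α β : V → ℕ, (∑ v, α v) + ∑ v, β v ≤ k ∧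
    F = fun z => monom α z.1 * monom β z.2}

omit [DecidableEq V] in
theorem lowDeg_mono {k m : ℕ} (h : k ≤ m) : lowDeg V P k ≤ lowDeg V P m :=
  Submodule.span_mono fun _ ⟨α, β, hab, hF⟩ => ⟨α, β, hab.trans h, hF⟩

omit [DecidableEq V] in
theorem lowDeg_const (c : ZMod P) : (fun _ => c) ∈ lowDeg V P 0 := by
  have h : (fun _ => c) = c • fun z : (V → ZMod P) × (V → ZMod P) =>
      monom (fun _ => 0) z.1 * monom (fun _ => 0) z.2 := by
    funext z; simp [monom]
  rw [h]
  exact Submodule.smul_mem _ _ (Submodule.subset_span ⟨_, _, by simp, rfl⟩)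

omit [DecidableEq V] in
theorem lowDeg_mul {k m : ℕ} {F G : (V → ZMod P) × (V → ZMod P) → ZMod P}
    (hF : F ∈ lowDeg V P k) (hG : G ∈ lowDeg V P m) :
    (fun z => F z * G z) ∈ lowDeg V P (k + m) := by
  unfold lowDeg at hF hG
  induction hF using Submodule.span_induction with
  | mem u hu =>
    obtain ⟨α, β, hab, rfl⟩ := hu
    induction hG using Submodule.span_induction with
    | mem v hv =>
      obtain ⟨α', β', hab', rfl⟩ := hv
      refine Submodule.subset_span ⟨α + α', β + β', ?_, ?_⟩
      · simp only [Pi.add_apply, sum_add_distrib]; omega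
      · funext z
        simp only [monom, Pi.add_apply, pow_add, prod_mul_distrib]
        ring
    | zero => simp only [Pi.zero_apply, mul_zero]; exact Submodule.zero_mem _
    | add v w _ _ hv hw => simp only [Pi.add_apply, mul_add]; exact Submodule.add_mem _ hv hw
    | smul c v _ hv =>
      simp only [Pi.smul_apply, smul_eq_mul, mul_left_comm _ c]
      exact Submodule.smul_mem _ c hv
  | zero => simp only [Pi.zero_apply, zero_mul]; exact Submodule.zero_mem _
  | add u v _ _ hu hv => simp only [Pi.add_apply, add_mul]; exact Submodule.add_mem _ hu hv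
  | smul c u _ hu =>
    simp only [Pi.smul_apply, smul_eq_mul, mul_assoc]
    exact Submodule.smul_mem _ c hu

omit [DecidableEq V] in
theorem lowDeg_prod {κ : Type} (s : Finset κ) (k : ℕ)
    (F : κ → (V → ZMod P) × (V → ZMod P) → ZMod P) (h : ∀ i ∈ s, F i ∈ lowDeg V P k) :
    (fun z => ∏ i ∈ s, F i z) ∈ lowDeg V P (s.card * k) := by
  classical
  induction s using Finset.induction_on with
  | empty => simpa using lowDeg_const (V := V) (P := P) 1
  | insert a s ha ih =>
    have h1 := lowDeg_mul (h a (mem_insert_self a s)) (ih fun i hi => h i (mem_insert_of_mem hi))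
    simp only [prod_insert ha]
    exact lowDeg_mono (le_of_eq (by rw [card_insert_of_notMem ha]; ring)) h1

theorem lowDeg_diff (v : V) : (fun z : (V → ZMod P) × (V → ZMod P) => z.2 v - z.1 v)
    ∈ lowDeg V P 1 := by
  have h : ∀ x : V → ZMod P, monom (Pi.single v 1) x = x v := fun x => by
    rw [monom, prod_eq_single v]
    · simp
    · intro w _ hw; simp [hw]
    · simp
  refine Submodule.sub_mem _ (Submodule.subset_span ⟨fun _ => 0, Pi.single v 1, by simp, ?_⟩)
    (Submodule.subset_span ⟨Pi.single v 1, fun _ => 0, by simp, ?_⟩)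
  · funext z; rw [h]; simp [monom]
  · funext z; rw [h]; simp [monom]

/-- Exponent reduction by Fermat. -/
theorem exists_reduced (n : ℕ) : ∃ m : Fin P, (m : ℕ) ≤ n ∧
    ∀ x : ZMod P, x ^ n = x ^ (m : ℕ) := by
  have hP := (Fact.out : P.Prime).two_le
  rcases Nat.eq_zero_or_pos n with rfl | hn
  · exact ⟨⟨0, by omega⟩, le_rfl, fun x => rfl⟩
  refine ⟨⟨(n - 1) % (P - 1) + 1, ?_⟩, ?_, fun x => ?_⟩
  · have := Nat.mod_lt (n - 1) (show 0 < P - 1 by omega); omega
  · have := Nat.mod_le (n - 1) (P - 1); simp only; omega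
  · rcases eq_or_ne x 0 with rfl | hx
    · rw [zero_pow (by omega), zero_pow (by simp)]
    · conv_lhs => rw [show n = (P - 1) * ((n - 1) / (P - 1)) + ((n - 1) % (P - 1) + 1) by
        rw [← Nat.add_assoc, Nat.div_add_mod]; omega]
      rw [pow_add, pow_mul, ZMod.pow_card_sub_one_eq_one hx, one_pow, one_mul]

/-- The exponent vectors of at most half the degree. -/
def smallExp (V : Type) [Fintype V] [DecidableEq V] (P k : ℕ) : Finset (V → Fin P) :=
  univ.filter fun a => 2 * ∑ v, (a v : ℕ) ≤ k

theorem lowDeg_split {k : ℕ} {F : (V → ZMod P) × (V → ZMod P) → ZMod P}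
    (hF : F ∈ lowDeg V P k) : ∃ φ ψ : (V → Fin P) → (V → ZMod P) → ZMod P, ∀ x y,
      F (x, y) = ∑ a ∈ smallExp V P k,
        (monom (fun v => (a v : ℕ)) x * φ a y + ψ a x * monom (fun v => (a v : ℕ)) y) := by
  unfold lowDeg at hF
  induction hF using Submodule.span_induction with
  | mem u hu =>
    obtain ⟨α, β, hab, rfl⟩ := hu
    rcases le_total (∑ v, α v) (∑ v, β v) with hle | hle
    · choose m hm1 hm2 using fun v => exists_reduced (P := P) (α v)
      have hmem : m ∈ smallExp V P k := mem_filter.2 ⟨mem_univ _, by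
        have := sum_le_sum fun v (_ : v ∈ univ) => hm1 v
        omega⟩
      refine ⟨fun a y => if a = m then monom β y else 0, fun _ _ => 0, fun x y => ?_⟩
      rw [sum_eq_single_of_mem m hmem (fun a _ ha => by simp [ha])]
      simp [monom, hm2]
    · choose m hm1 hm2 using fun v => exists_reduced (P := P) (β v)
      have hmem : m ∈ smallExp V P k := mem_filter.2 ⟨mem_univ _, by
        have := sum_le_sum fun v (_ : v ∈ univ) => hm1 v
        omega⟩
      refine ⟨fun _ _ => 0, fun a x => if a = m then monom α x else 0, fun x y => ?_⟩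
      rw [sum_eq_single_of_mem m hmem (fun a _ ha => by simp [ha])]
      simp [monom, hm2]
  | zero => exact ⟨0, 0, fun x y => by simp⟩
  | add u v _ _ hu hv =>
    obtain ⟨φ, ψ, h⟩ := hu
    obtain ⟨φ', ψ', h'⟩ := hv
    refine ⟨φ + φ', ψ + ψ', fun x y => ?_⟩
    rw [Pi.add_apply, h, h', ← sum_add_distrib]
    exact sum_congr rfl fun a _ => by simp only [Pi.add_apply]; ring
  | smul c u _ hu =>
    obtain ⟨φ, ψ, h⟩ := hu
    refine ⟨c • φ, c • ψ, fun x y => ?_⟩
    rw [Pi.smul_apply, h, smul_eq_mul, mul_sum]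
    exact sum_congr rfl fun a _ => by simp only [Pi.smul_apply, smul_eq_mul]; ring

/-- A kernel that is diagonal on a set bounds the set. -/
theorem card_le_of_diagonal {k : ℕ} (B : Finset (V → ZMod P))
    {F : (V → ZMod P) × (V → ZMod P) → ZMod P} (hF : F ∈ lowDeg V P k)
    (hd : ∀ x ∈ B, F (x, x) ≠ 0) (ho : ∀ x ∈ B, ∀ y ∈ B, x ≠ y → F (x, y) = 0) :
    B.card ≤ 2 * (smallExp V P k).card := by
  classical
  obtain ⟨φ, ψ, h⟩ := lowDeg_split hF
  let vecs : ↥(smallExp V P k) ⊕ ↥(smallExp V P k) → (↥B → ZMod P) :=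
    Sum.elim (fun a x => monom (fun v => (a.1 v : ℕ)) x.1) (fun a x => ψ a.1 x.1)
  have htop : Submodule.span (ZMod P) (Set.range vecs) = ⊤ := by
    rw [eq_top_iff, ← (Pi.basisFun (ZMod P) ↥B).span_eq, Submodule.span_le]
    rintro _ ⟨y, rfl⟩
    have e : (Pi.basisFun (ZMod P) ↥B) y = (F (y.1, y.1))⁻¹ • ∑ a : ↥(smallExp V P k),
        (φ a.1 y.1 • vecs (Sum.inl a) + monom (fun v => (a.1 v : ℕ)) y.1 • vecs (Sum.inr a)) := by
      funext x
      simp only [Pi.basisFun_apply, Pi.smul_apply, Finset.sum_apply, Pi.add_apply, smul_eq_mul,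
        vecs, Sum.elim_inl, Sum.elim_inr]
      have e2 : ∑ a : ↥(smallExp V P k), (φ a.1 y.1 * monom (fun v => (a.1 v : ℕ)) x.1
          + monom (fun v => (a.1 v : ℕ)) y.1 * ψ a.1 x.1) = F (x.1, y.1) := by
        rw [h, ← sum_coe_sort (smallExp V P k)]
        exact sum_congr rfl fun a _ => by ring
      rw [e2]
      by_cases hxy : x = y
      · subst hxy
        rw [Pi.single_eq_same, inv_mul_cancel₀ (hd _ x.2)]
      · rw [Pi.single_eq_of_ne hxy, ho _ x.2 _ y.2 (fun hh => hxy (Subtype.ext hh)), mul_zero]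
    rw [SetLike.mem_coe, e]
    refine Submodule.smul_mem _ _ (Submodule.sum_mem _ fun a _ => Submodule.add_mem _ ?_ ?_) <;>
      exact Submodule.smul_mem _ _ (Submodule.subset_span (Set.mem_range_self _))
  have h1 : Module.finrank (ZMod P) (Submodule.span (ZMod P) (Set.range vecs))
      ≤ Fintype.card (↥(smallExp V P k) ⊕ ↥(smallExp V P k)) := finrank_range_le_card vecs
  rw [htop, finrank_top, Module.finrank_pi, Fintype.card_coe, Fintype.card_sum,
    Fintype.card_coe] at h1
  omega

/-- Exponential moment bound for the small exponent vectors. -/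
theorem smallExp_card_le (k : ℕ) (γ : ℝ) (h0 : 0 < γ) (h1 : γ ≤ 1)
    (hk : (k : ℝ) ≤ ((P : ℝ) - 1 - γ) * Fintype.card V) :
    ((smallExp V P k).card : ℝ) ≤ (P : ℝ) ^ Fintype.card V *
      Real.exp (-(γ ^ 2 * Fintype.card V / (16 * (P : ℝ) ^ 2))) := by
  have hP : (2 : ℝ) ≤ P := by exact_mod_cast (Fact.out : P.Prime).two_le
  set t : ℝ := γ / (4 * (P : ℝ) ^ 2) with ht
  have ht0 : 0 ≤ t := by positivity
  have htP : t * P ≤ 1 := by
    rw [ht, div_mul_eq_mul_div, div_le_one (by positivity)]; nlinarith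
  let u : Fin P → ℝ := fun j => t * (((P : ℝ) - 1) / 2 - (j : ℕ))
  have hu0 : ∑ j : Fin P, u j = 0 := by
    have hg : ((∑ j ∈ range P, j : ℕ) : ℝ) * 2 = (P : ℝ) * (P - 1) := by
      have := congrArg (Nat.cast (R := ℝ)) (Finset.sum_range_id_mul_two P)
      push_cast [Nat.cast_sub (Fact.out : P.Prime).one_le] at this ⊢
      linarith
    simp only [u, ← mul_sum, sum_sub_distrib, sum_const, card_univ, Fintype.card_fin, nsmul_eq_mul]
    rw [Fin.sum_univ_eq_sum_range (fun j => (j : ℝ)), ← Nat.cast_sum]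
    have : ((P : ℝ) * ((P - 1) / 2) - ((∑ j ∈ range P, j : ℕ) : ℝ)) = 0 := by linarith
    rw [this, mul_zero]
  have hu1 : ∀ j, |u j| ≤ t * P := by
    intro j
    have hj : ((j : ℕ) : ℝ) + 1 ≤ P := by exact_mod_cast j.2
    rw [abs_mul, abs_of_nonneg ht0]
    refine mul_le_mul_of_nonneg_left (abs_le.2 ⟨?_, ?_⟩) ht0 <;>
      linarith [show (0 : ℝ) ≤ ((j : ℕ) : ℝ) by positivity]
  have hone : ∑ j : Fin P, Real.exp (u j) ≤ P * Real.exp ((t * P) ^ 2) := by
    calc ∑ j : Fin P, Real.exp (u j) ≤ ∑ j : Fin P, (1 + u j + (t * P) ^ 2) := by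
          refine sum_le_sum fun j _ => ?_
          have h2 := Real.abs_exp_sub_one_sub_id_le ((hu1 j).trans htP)
          have h3 : u j ^ 2 ≤ (t * P) ^ 2 := by
            rw [← sq_abs]; exact pow_le_pow_left₀ (abs_nonneg _) (hu1 j) 2
          linarith [(abs_le.1 h2).2]
      _ = P * (1 + (t * P) ^ 2) := by
          simp only [sum_add_distrib, hu0, sum_const, card_univ, Fintype.card_fin, nsmul_eq_mul]
          ring
      _ ≤ P * Real.exp ((t * P) ^ 2) := by
          gcongr; linarith [Real.add_one_le_exp ((t * P) ^ 2)]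
  calc ((smallExp V P k).card : ℝ) = ∑ a ∈ smallExp V P k, (1 : ℝ) := by simp
    _ ≤ ∑ a ∈ smallExp V P k, (∏ v, Real.exp (u (a v)))
          * Real.exp (-(t * γ * Fintype.card V / 2)) := by
        refine sum_le_sum fun a ha => ?_
        rw [← Real.exp_sum, ← Real.exp_add]
        refine Real.one_le_exp ?_
        have h2 : (2 : ℝ) * ∑ v, ((a v : ℕ) : ℝ) ≤ k := by exact_mod_cast (mem_filter.1 ha).2
        have e : ∑ v, u (a v) + -(t * γ * Fintype.card V / 2)
            = t / 2 * (((P : ℝ) - 1 - γ) * Fintype.card V - 2 * ∑ v, ((a v : ℕ) : ℝ)) := by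
          simp only [u, ← mul_sum, sum_sub_distrib, sum_const, card_univ, nsmul_eq_mul]
          ring
        rw [e]
        exact mul_nonneg (by positivity) (by linarith)
    _ ≤ ∑ a : V → Fin P, (∏ v, Real.exp (u (a v)))
          * Real.exp (-(t * γ * Fintype.card V / 2)) :=
        sum_le_sum_of_subset_of_nonneg (subset_univ _) fun a _ _ => by positivity
    _ = (∑ j : Fin P, Real.exp (u j)) ^ Fintype.card V
          * Real.exp (-(t * γ * Fintype.card V / 2)) := by
        rw [← sum_mul, ← Fintype.prod_sum (fun _ => fun j => Real.exp (u j)), prod_const, card_univ]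
    _ ≤ ((P : ℝ) * Real.exp ((t * P) ^ 2)) ^ Fintype.card V
          * Real.exp (-(t * γ * Fintype.card V / 2)) := by gcongr
    _ = _ := by
        rw [mul_pow, ← Real.exp_nat_mul, mul_assoc, ← Real.exp_add, ht]
        congr 2
        field_simp
        ring

/-- A dense set of labellings holds a point and its shift by one off a small set. -/
theorem exists_shift (hP : 3 ≤ P) (B : Finset (V → ZMod P)) (γ : ℝ) (h0 : 0 < γ) (h1 : γ < 1)
    (hB : 2 * (P : ℝ) ^ Fintype.card V *
      Real.exp (-(γ ^ 2 * Fintype.card V / (16 * (P : ℝ) ^ 2))) < B.card) :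
    ∃ x ∈ B, ∃ J : Finset V, (J.card : ℝ) ≤ γ * Fintype.card V ∧
      (fun v => x v + if v ∈ J then 0 else 1) ∈ B := by
  classical
  by_contra hcon
  push Not at hcon
  set N := Fintype.card V with hN
  have hN0 : 0 < N := by
    rcases Nat.eq_zero_or_pos N with h | h
    · haveI : IsEmpty V := Fintype.card_eq_zero_iff.1 h
      have hle : B.card ≤ 1 := (card_le_univ B).trans (by simp)
      have : (B.card : ℝ) ≤ 1 := by exact_mod_cast hle
      rw [h] at hB
      norm_num at hB
      linarith
    · exact h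
  set M := ⌈(1 - γ) * (N : ℝ)⌉₊ with hM
  have hM1 : 1 ≤ M := Nat.ceil_pos.2 (mul_pos (by linarith) (by exact_mod_cast hN0))
  set rest : Finset (ZMod P) := (univ : Finset (ZMod P)) \ {0, 1} with hrest
  have hrc : rest.card = P - 2 := by
    rw [hrest, card_sdiff_of_subset (subset_univ _), card_univ, ZMod.card, card_pair zero_ne_one]
  let F : (V → ZMod P) × (V → ZMod P) → ZMod P := fun z =>
    (∑ S ∈ (univ : Finset (Finset V)).filter (fun S => S.card < M),
      (-1) ^ S.card * ∏ v ∈ S, (z.2 v - z.1 v)) * ∏ v, ∏ r ∈ rest, (z.2 v - z.1 v - r)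
  set k := (M - 1) + N * (P - 2) with hk
  have hFmem : F ∈ lowDeg V P k := by
    refine lowDeg_mul ?_ ?_
    · have e : (fun z : (V → ZMod P) × (V → ZMod P) =>
          ∑ S ∈ (univ : Finset (Finset V)).filter (fun S => S.card < M),
            (-1) ^ S.card * ∏ v ∈ S, (z.2 v - z.1 v))
          = ∑ S ∈ (univ : Finset (Finset V)).filter (fun S => S.card < M),
            fun z => (-1) ^ S.card * ∏ v ∈ S, (z.2 v - z.1 v) := by
        funext z; rw [Finset.sum_apply]
      rw [e]
      refine Submodule.sum_mem _ fun S hS => ?_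
      have h2 := lowDeg_prod (P := P) S 1 (fun v z => z.2 v - z.1 v) fun v _ => lowDeg_diff v
      refine lowDeg_mono ?_ (lowDeg_mul (lowDeg_const ((-1 : ZMod P) ^ S.card)) h2)
      have := (mem_filter.1 hS).2
      omega
    · rw [← hrc, hN, ← card_univ]
      refine lowDeg_prod univ _ _ fun v _ => ?_
      have h2 := lowDeg_prod (P := P) rest 1
        (fun r (z : (V → ZMod P) × (V → ZMod P)) => z.2 v - z.1 v - r) fun r _ =>
          Submodule.sub_mem _ (lowDeg_diff v) (lowDeg_mono (Nat.zero_le 1) (lowDeg_const r))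
      simpa using h2
  have hd : ∀ x ∈ B, F (x, x) ≠ 0 := by
    intro x _
    simp only [F, sub_self, zero_sub]
    refine mul_ne_zero ?_ (prod_ne_zero_iff.2 fun v _ => prod_ne_zero_iff.2 fun r hr => ?_)
    · rw [sum_eq_single (∅ : Finset V)]
      · simp
      · intro S _ hS
        obtain ⟨v, hv⟩ := nonempty_iff_ne_empty.2 hS
        rw [prod_eq_zero hv rfl, mul_zero]
      · intro h; exact absurd (mem_filter.2 ⟨mem_univ _, by simp; omega⟩) h
    · rw [hrest, mem_sdiff] at hr
      exact neg_ne_zero.2 fun h => hr.2 (by simp [h])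
  have ho : ∀ x ∈ B, ∀ y ∈ B, x ≠ y → F (x, y) = 0 := by
    intro x hx y hy hxy
    simp only [F]
    by_cases h01 : ∀ v, y v - x v = 0 ∨ y v - x v = 1
    · set A := univ.filter fun v => y v - x v = 1 with hA
      set J := univ.filter fun v => y v - x v = 0 with hJ
      have hdis : A.card + J.card = N := by
        rw [hA, hJ, ← card_union_of_disjoint, hN, ← card_univ]
        · congr 1
          ext v; simpa [or_comm] using (h01 v)
        · rw [disjoint_filter]; intro v _ h1 h0; rw [h1] at h0; exact one_ne_zero h0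
      have hyeq : (fun v => x v + if v ∈ J then 0 else 1) = y := by
        funext v
        rcases h01 v with h | h
        · simp [hJ, h, (sub_eq_zero.1 h).symm]
        · simp [hJ, h, eq_add_of_sub_eq' h]
      have hbig : γ * N < J.card := by
        by_contra hle
        exact hcon x hx J (not_lt.1 hle) (hyeq ▸ hy)
      have hAlt : A.card < M := by
        rw [hM, Nat.lt_ceil]
        have : (A.card : ℝ) + J.card = N := by exact_mod_cast hdis
        linarith
      have hApos : A.card ≠ 0 := by
        intro h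
        refine hxy (funext fun v => ?_)
        rcases h01 v with h0 | h1'
        · exact (sub_eq_zero.1 h0).symm
        · rw [card_eq_zero] at h
          exact absurd (show v ∈ A from mem_filter.2 ⟨mem_univ _, h1'⟩) (by simp [h])
      have hprod : ∀ S : Finset V, ∏ v ∈ S, (y v - x v) = if S ⊆ A then 1 else 0 := by
        intro S
        split_ifs with hS
        · exact prod_eq_one fun v hv => (mem_filter.1 (hS hv)).2
        · obtain ⟨v, hv, hvA⟩ := not_subset.1 hS
          exact prod_eq_zero hv ((h01 v).resolve_right fun h => hvA (mem_filter.2 ⟨mem_univ _, h⟩))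
      have hsum : ∑ S ∈ (univ : Finset (Finset V)).filter (fun S => S.card < M),
          (-1 : ZMod P) ^ S.card * ∏ v ∈ S, (y v - x v) = 0 := by
        simp only [hprod, mul_ite, mul_one, mul_zero]
        rw [← sum_filter]
        have e : ((univ : Finset (Finset V)).filter (fun S => S.card < M)).filter (fun S => S ⊆ A)
            = A.powerset := by
          ext S
          simp only [mem_filter, mem_univ, true_and, mem_powerset]
          exact ⟨fun h => h.2, fun h => ⟨(card_le_card h).trans_lt hAlt, h⟩⟩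
        rw [e, sum_powerset_apply_card (f := fun m => (-1 : ZMod P) ^ m)]
        simp only [nsmul_eq_mul]
        have h2 := (add_pow (-1 : ZMod P) 1 A.card).symm
        rw [neg_add_cancel, zero_pow hApos] at h2
        rw [← h2]
        exact sum_congr rfl fun m _ => by rw [one_pow]; ring
      rw [hsum, zero_mul]
    · push Not at h01
      obtain ⟨v, hv0, hv1⟩ := h01
      rw [prod_eq_zero (mem_univ v) (prod_eq_zero (i := y v - x v) (by simp [hrest, hv0, hv1])
        (sub_self _)), mul_zero]
  have hle := card_le_of_diagonal B hFmem hd ho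
  have hkle : (k : ℝ) ≤ ((P : ℝ) - 1 - γ) * N := by
    have hc := Nat.ceil_lt_add_one (show (0 : ℝ) ≤ (1 - γ) * N by nlinarith)
    rw [← hM] at hc
    rw [hk, Nat.cast_add, Nat.cast_sub hM1, Nat.cast_mul, Nat.cast_sub (by omega : 2 ≤ P)]
    push_cast
    nlinarith
  have hcard := smallExp_card_le (V := V) k γ h0 h1.le hkle
  have : (B.card : ℝ) ≤ 2 * ((smallExp V P k).card : ℝ) := by exact_mod_cast hle
  rw [← hN] at hcard
  linarith

end Vale.Agent.P047D
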