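import Vale.Agent.P047D.Family
import Vale.Agent.P047D.CLP

namespace Vale.Agent.P047D

open Finset

/-- The weight of a point. -/
def wt {b : ℕ} (y : Fin b → Bool) : Fin (b + 1) :=
  ⟨#{i | y i = true}, Nat.lt_succ_of_le ((card_filter_le _ _).trans (by simp))⟩

/-- The state of a point: junk, or its weight. -/
def stateOf {b : ℕ} (J : Finset (Fin b → Bool)) (y : Fin b → Bool) : Option (Fin (b + 1)) :=
  if y ∈ J then none else some (wt y)

/-- Centred class indicator inside a state. -/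
noncomputable def centred {b P : ℕ} (J : Finset (Fin b → Bool)) (u : (Fin b → Bool) → ZMod P)
    (s : Option (Fin (b + 1))) (l : ZMod P) (y : Fin b → Bool) : ℝ :=
  (if stateOf J y = s ∧ u y = l then 1 else 0) - (if stateOf J y = s then (1 : ℝ) / P else 0)

theorem eventually_small (P : ℕ) (c δ : ℝ) (hc : 0 < c) (hδ : 0 < δ) :
    ∀ᶠ b : ℕ in Filter.atTop,
      ((b : ℝ) + 2) ^ 2 * P * (2 ^ b * Real.exp (-(2 * δ ^ 2 * b))) + 1 < c * 2 ^ b := by
  have hr : |Real.exp (-(2 * δ ^ 2))| < 1 := by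
    rw [abs_of_pos (Real.exp_pos _), Real.exp_lt_one_iff]; nlinarith
  have ht : Filter.Tendsto (fun b : ℕ => ((b : ℝ) ^ 2 * Real.exp (-(2 * δ ^ 2)) ^ b) * (9 * (P : ℝ)))
      Filter.atTop (nhds (0 * (9 * (P : ℝ)))) :=
    (tendsto_pow_const_mul_const_pow_of_abs_lt_one 2 hr).mul_const _
  rw [zero_mul] at ht
  have h1 := ht.eventually_lt_const (half_pos hc)
  have h2 : ∀ᶠ b : ℕ in Filter.atTop, 1 ≤ c / 2 * 2 ^ b :=
    ((tendsto_pow_atTop_atTop_of_one_lt (one_lt_two : (1 : ℝ) < 2)).const_mul_atTop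
      (half_pos hc)).eventually_ge_atTop 1
  filter_upwards [h1, h2, Filter.eventually_ge_atTop 1] with b hb1 hb2 hb3
  have hb : (1 : ℝ) ≤ b := by exact_mod_cast hb3
  have e : Real.exp (-(2 * δ ^ 2 * b)) = Real.exp (-(2 * δ ^ 2)) ^ b := by
    rw [← Real.exp_nat_mul]; ring_nf
  rw [e]
  have hq : 0 < Real.exp (-(2 * δ ^ 2)) ^ b := by positivity
  have h3 : ((b : ℝ) + 2) ^ 2 ≤ 9 * (b : ℝ) ^ 2 := by nlinarith
  have h4 : ((b : ℝ) + 2) ^ 2 * P * Real.exp (-(2 * δ ^ 2)) ^ b < c / 2 := by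
    refine lt_of_le_of_lt ?_ hb1
    calc ((b : ℝ) + 2) ^ 2 * P * Real.exp (-(2 * δ ^ 2)) ^ b
        ≤ 9 * (b : ℝ) ^ 2 * P * Real.exp (-(2 * δ ^ 2)) ^ b := by gcongr
      _ = _ := by ring
  have h5 : (0 : ℝ) < 2 ^ b := by positivity
  nlinarith

theorem zmod_const {P : ℕ} [NeZero P] (h : ZMod P → ℤ) (hh : ∀ l, h l = h (l - 1)) (l : ZMod P) :
    h l = h 0 := by
  have : ∀ m : ℕ, h (m : ZMod P) = h 0 := by
    intro m
    induction m with
    | zero => simp
    | succ m ih => rw [hh]; simpa using ih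
  simpa using this l.val

/-- For large `b` the cube splits into exactly colourable states with little junk. -/
theorem exists_block (P : ℕ) [Fact P.Prime] (hP : 3 ≤ P) (γ δ : ℝ) (h0 : 0 < γ) (h1 : γ < 1)
    (hδ : 0 < δ) :
    ∀ᶠ b : ℕ in Filter.atTop, ∃ (J : Finset (Fin b → Bool)) (u : (Fin b → Bool) → ZMod P),
      (J.card : ℝ) ≤ γ * 2 ^ b ∧
      ∀ s l, DegLE ⌊(1 / 2 + δ) * b⌋₊ (centred J u s l) := by
  classical
  set c : ℝ := γ ^ 2 / (16 * (P : ℝ) ^ 2) with hc
  have hc0 : 0 < c := by positivity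
  filter_upwards [eventually_small P c δ hc0 hδ] with b hb
  set D := ⌊(1 / 2 + δ) * b⌋₊ with hD
  have hW := highCount_le b D δ hδ.le (Nat.lt_floor_add_one _).le
  let K := ZMod P × Fin (b + 1) × {U : Finset (Fin b) // D < U.card}
  let vec : ((Fin b → Bool) → ZMod P) → K → ℤ :=
    fun u k => mob k.2.2.1 (fun y => if wt y = k.2.1 ∧ u y = k.1 then 1 else 0)
  set T := Fintype.piFinset fun _ : K => Icc (-(2 : ℤ) ^ b) (2 ^ b) with hT
  set F := exactFam b P D with hF
  have hmaps : ∀ u ∈ F, vec u ∈ T := by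
    intro u _
    refine Fintype.mem_piFinset.2 fun k => mem_Icc.2 (abs_le.1 (abs_mob_ind_le _ _ fun y => ?_))
    split_ifs <;> simp
  have hTcard : (T.card : ℝ) ≤ ((2 : ℝ) ^ (b + 2)) ^ (P * (b + 1) * highCount b D) := by
    rw [hT, Fintype.card_piFinset, prod_const, card_univ]
    simp only [K, Fintype.card_prod, ZMod.card, Fintype.card_fin, Fintype.card_subtype, ← mul_assoc]
    change ((_ ^ (P * (b + 1) * highCount b D) : ℕ) : ℝ) ≤ _
    push_cast
    refine pow_le_pow_left₀ (by positivity) ?_ _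
    exact_mod_cast card_Icc_le b b le_rfl
  have hFcard : (P : ℝ) ^ 2 ^ b
      ≤ (F.card : ℝ) * ((2 : ℝ) ^ (b + 2)) ^ (P * highCount b D) := by
    exact_mod_cast count_aux P D b b le_rfl
  set thr : ℝ := 2 * (P : ℝ) ^ 2 ^ b * Real.exp (-(c * 2 ^ b)) with hthr
  obtain ⟨t, _, ht⟩ : ∃ t ∈ T, thr < ((F.filter fun u => vec u = t).card : ℝ) := by
    by_contra hcon
    push Not at hcon
    have h2 : (F.card : ℝ) ≤ (T.card : ℝ) * thr := by
      rw [card_eq_sum_card_fiberwise (f := vec) (t := T) hmaps, ← nsmul_eq_mul, ← sum_const]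
      push_cast
      exact sum_le_sum fun t ht => hcon t ht
    have hthr0 : 0 < thr := by rw [hthr]; positivity
    have h3 : (P : ℝ) ^ 2 ^ b
        ≤ thr * ((2 : ℝ) ^ (b + 2)) ^ (P * (b + 2) * highCount b D) := by
      calc (P : ℝ) ^ 2 ^ b ≤ (F.card : ℝ) * ((2 : ℝ) ^ (b + 2)) ^ (P * highCount b D) := hFcard
        _ ≤ ((T.card : ℝ) * thr) * ((2 : ℝ) ^ (b + 2)) ^ (P * highCount b D) := by gcongr
        _ ≤ (((2 : ℝ) ^ (b + 2)) ^ (P * (b + 1) * highCount b D) * thr)
            * ((2 : ℝ) ^ (b + 2)) ^ (P * highCount b D) := by gcongr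
        _ = thr * ((2 : ℝ) ^ (b + 2)) ^ (P * (b + 2) * highCount b D) := by ring
    have h4 : ((2 : ℝ) ^ (b + 2)) ^ (P * (b + 2) * highCount b D)
        ≤ Real.exp (((b : ℝ) + 2) ^ 2 * P * (2 ^ b * Real.exp (-(2 * δ ^ 2 * b)))) := by
      have h21 : (2 : ℝ) ≤ Real.exp 1 := by have := Real.add_one_le_exp (1 : ℝ); linarith
      rw [← pow_mul]
      refine (pow_le_pow_left₀ (by norm_num) h21 _).trans ?_
      rw [← Real.exp_nat_mul, mul_one]
      refine Real.exp_le_exp.2 ?_
      push_cast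
      calc ((b : ℝ) + 2) * (P * (b + 2) * highCount b D)
          = ((b : ℝ) + 2) ^ 2 * P * highCount b D := by ring
        _ ≤ _ := by gcongr
    have h5 : (2 : ℝ) * Real.exp (-(c * 2 ^ b))
        * Real.exp (((b : ℝ) + 2) ^ 2 * P * (2 ^ b * Real.exp (-(2 * δ ^ 2 * b)))) < 1 := by
      have h21 : (2 : ℝ) ≤ Real.exp 1 := by have := Real.add_one_le_exp (1 : ℝ); linarith
      calc _ ≤ Real.exp 1 * Real.exp (-(c * 2 ^ b))
            * Real.exp (((b : ℝ) + 2) ^ 2 * P * (2 ^ b * Real.exp (-(2 * δ ^ 2 * b)))) := by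
            gcongr
        _ < 1 := by rw [← Real.exp_add, ← Real.exp_add, Real.exp_lt_one_iff]; linarith
    have h6 : (0 : ℝ) < (P : ℝ) ^ 2 ^ b := by
      have : (0 : ℝ) < P := by exact_mod_cast (by omega : 0 < P)
      positivity
    have h7 := h3.trans (mul_le_mul_of_nonneg_left h4 hthr0.le)
    rw [hthr] at h7
    nlinarith
  have hcube : Fintype.card (Fin b → Bool) = 2 ^ b := by simp
  obtain ⟨x, hx, J, hJ, hy⟩ := exists_shift (V := Fin b → Bool) hP _ γ h0 h1 (by
    rw [hcube]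
    push_cast
    rw [hthr, hc] at ht
    refine lt_of_le_of_lt (le_of_eq ?_) ht
    congr 2
    ring)
  rw [mem_filter] at hx hy
  set y : (Fin b → Bool) → ZMod P := fun v => x v + if v ∈ J then 0 else 1 with hydef
  refine ⟨J, x, by rw [hcube] at hJ; exact_mod_cast hJ, fun s l => ?_⟩
  refine degLE_of_mob _ fun U hU => ?_
  let g : Option (Fin (b + 1)) → ZMod P → ℤ :=
    fun s l => mob U (fun v => if stateOf J v = s ∧ x v = l then 1 else 0)
  have hsome : ∀ a l, g (some a) l = g (some a) (l - 1) := by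
    intro a l
    have key : mob U (fun v => if wt v = a ∧ x v = l then (1 : ℤ) else 0)
        = mob U (fun v => if wt v = a ∧ y v = l then (1 : ℤ) else 0) :=
      congr_fun (hx.2.trans hy.2.symm) (l, a, ⟨U, hU⟩)
    have hd : (fun v => (if stateOf J v = some a ∧ x v = l then (1 : ℤ) else 0)
          - (if stateOf J v = some a ∧ x v = l - 1 then (1 : ℤ) else 0))
        = fun v => (if wt v = a ∧ x v = l then (1 : ℤ) else 0)
          - (if wt v = a ∧ y v = l then (1 : ℤ) else 0) := by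
      funext v
      by_cases hv : v ∈ J
      · simp [stateOf, hv, hydef]
      · simp [stateOf, hv, hydef, eq_sub_iff_add_eq]
    refine sub_eq_zero.1 ?_
    show mob U _ - mob U _ = 0
    rw [← mob_sub, hd, mob_sub, key, sub_self]
  have hall : ∀ s l, g s l = g s 0 := by
    intro s l
    cases s with
    | some a => exact zmod_const (g (some a)) (hsome a) l
    | none =>
      have hsplit : ∀ l, g none l = - ∑ a, g (some a) l := by
        intro l
        have h0 : mob U (cls x l) = 0 := mem_exactFam.1 hx.1 l U hU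
        have e : cls x l = fun v => ∑ s : Option (Fin (b + 1)),
            (if stateOf J v = s ∧ x v = l then (1 : ℤ) else 0) := by
          funext v
          rw [Finset.sum_eq_single (stateOf J v)]
          · simp [cls]
          · intro s _ hs; simp [Ne.symm hs]
          · simp
        rw [e, mob_sum, Fintype.sum_option] at h0
        exact eq_neg_of_add_eq_zero_left h0
      rw [hsplit, hsplit 0]
      exact congr_arg _ (sum_congr rfl fun a _ => zmod_const (g (some a)) (hsome a) l)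
  have e : centred J x s l = fun v => (if stateOf J v = s ∧ x v = l then (1 : ℝ) else 0)
      - (1 / (P : ℝ)) * ∑ l' : ZMod P, (if stateOf J v = s ∧ x v = l' then (1 : ℝ) else 0) := by
    funext v
    by_cases hv : stateOf J v = s <;> simp [centred, hv, sum_ite_eq]
  have hcast : ∀ l', mob U (fun v => if stateOf J v = s ∧ x v = l' then (1 : ℝ) else 0)
      = (g s l' : ℝ) := by
    intro l'
    show _ = ((mob U _ : ℤ) : ℝ)
    rw [mob_cast]
    simp [apply_ite (Int.cast (R := ℝ))]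
  rw [e, mob_sub, mob_smul, mob_sum, sum_congr rfl fun l' _ => hcast l', hcast, hall s l,
    sum_congr rfl fun l' _ => by rw [hall s l'], sum_const, card_univ, ZMod.card, nsmul_eq_mul]
  have hP0 : (P : ℝ) ≠ 0 := Nat.cast_ne_zero.2 (by omega)
  field_simp
  ring

end Vale.Agent.P047D
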