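import Vale.Agent.P047D.Deg

namespace Vale.Agent.P047D

open Finset

variable {R : Type*} [CommRing R]

/-- Moebius coefficient of a function on the cube. -/
def mob {b : ℕ} (U : Finset (Fin b)) (f : (Fin b → Bool) → R) : R :=
  ∑ W ∈ U.powerset, (-1) ^ (U \ W).card * f (fun i => decide (i ∈ W))

/-- The number of index sets above level `D`. -/
def highCount (b D : ℕ) : ℕ := #{U : Finset (Fin b) | D < U.card}

theorem mob_sub {b : ℕ} (U : Finset (Fin b)) (f g : (Fin b → Bool) → R) :
    mob U (fun y => f y - g y) = mob U f - mob U g := by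
  simp [mob, mul_sub, sum_sub_distrib]

theorem mob_sum {b : ℕ} {κ : Type*} (s : Finset κ) (U : Finset (Fin b))
    (F : κ → (Fin b → Bool) → R) :
    mob U (fun y => ∑ k ∈ s, F k y) = ∑ k ∈ s, mob U (F k) := by
  simp only [mob, mul_sum]
  exact sum_comm

theorem mob_smul {b : ℕ} (U : Finset (Fin b)) (c : R) (f : (Fin b → Bool) → R) :
    mob U (fun y => c * f y) = c * mob U f := by
  simp only [mob, mul_sum]
  exact sum_congr rfl fun W _ => by ring

theorem mob_one {b : ℕ} (U : Finset (Fin b)) (hU : 0 < U.card) :
    mob U (fun _ => (1 : R)) = 0 := by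
  have h : mob U (fun _ => (1 : R)) = ∑ W ∈ U.powerset, (-1) ^ (U.card - W.card) := by
    refine sum_congr rfl fun W hW => ?_
    rw [card_sdiff_of_subset (mem_powerset.1 hW), mul_one]
  rw [h, sum_powerset_apply_card (f := fun m => ((-1 : R)) ^ (U.card - m))]
  have h2 := (add_pow (1 : R) (-1) U.card).symm
  rw [add_neg_cancel, zero_pow hU.ne'] at h2
  rw [← h2]
  refine sum_congr rfl fun m _ => ?_
  simp [nsmul_eq_mul, mul_comm]

/-- Moebius inversion at one point. -/
theorem sum_mob {b : ℕ} (V : Finset (Fin b)) (f : (Fin b → Bool) → R) :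
    ∑ U ∈ V.powerset, mob U f = f (fun i => decide (i ∈ V)) := by
  induction V using Finset.induction_on generalizing f with
  | empty => simp [mob]
  | insert a s ha ih =>
    rw [sum_powerset_insert ha]
    have hins : ∀ U ∈ s.powerset, mob (insert a U) f
        = mob U (fun y => f (Function.update y a true)) - mob U f := by
      intro U hU
      have haU : a ∉ U := fun h => ha (mem_powerset.1 hU h)
      simp only [mob]
      rw [sum_powerset_insert haU, ← sum_sub_distrib, ← sum_add_distrib]
      refine sum_congr rfl fun W hW => ?_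
      have haW : a ∉ W := fun h => haU (mem_powerset.1 hW h)
      have e1 : (insert a U \ W).card = (U \ W).card + 1 := by
        rw [insert_sdiff_of_notMem U haW, card_insert_of_notMem]
        simp [haU]
      have e2 : insert a U \ insert a W = U \ W := by
        ext i
        by_cases hi : i = a <;> simp [hi, haU]
      have e3 : (fun i => decide (i ∈ insert a W))
          = Function.update (fun i => decide (i ∈ W)) a true := by
        funext i
        by_cases hi : i = a <;> simp [hi]
      rw [e1, e2, e3, pow_succ]
      ring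
    rw [sum_congr rfl hins, sum_sub_distrib, ih, ih]
    have e4 : Function.update (fun i => decide (i ∈ s)) a true
        = fun i => decide (i ∈ insert a s) := by
      funext i
      by_cases hi : i = a <;> simp [hi]
    rw [e4]
    ring

theorem degLE_of_mob {b D : ℕ} (f : (Fin b → Bool) → ℝ)
    (h : ∀ U : Finset (Fin b), D < U.card → mob U f = 0) : DegLE D f := by
  have hf : f = fun y => ∑ U ∈ univ.filter (fun U : Finset (Fin b) => U.card ≤ D),
      mob U f * (if ∀ i ∈ U, y i = true then 1 else 0) := by
    funext y
    have hy : (fun i => decide (i ∈ univ.filter fun i => y i = true)) = y := by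
      funext i; cases hyi : y i <;> simp [hyi]
    conv_lhs => rw [← hy, ← sum_mob (univ.filter fun i => y i = true) f]
    rw [sum_filter]
    have : ∀ U : Finset (Fin b),
        (if U.card ≤ D then mob U f * (if ∀ i ∈ U, y i = true then 1 else 0) else 0)
          = if U ∈ (univ.filter fun i => y i = true).powerset then mob U f else 0 := by
      intro U
      have hiff : U ∈ (univ.filter fun i => y i = true).powerset ↔ ∀ i ∈ U, y i = true := by
        simp [subset_iff]
      by_cases hU : U.card ≤ D
      · rw [if_pos hU]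
        by_cases hall : ∀ i ∈ U, y i = true
        · rw [if_pos hall, if_pos (hiff.2 hall), mul_one]
        · rw [if_neg hall, if_neg (fun hh => hall (hiff.1 hh)), mul_zero]
      · rw [if_neg hU, h U (by omega)]
        simp
    rw [sum_congr rfl fun U _ => this U, sum_ite_mem, univ_inter]
  rw [hf]
  refine DegLE.sum' _ _ fun U hU => DegLE.smul' _ ?_
  refine DegLE.of_junta' U (mem_filter.1 hU).2 fun x y hxy => ?_
  have hiff : (∀ i ∈ U, x i = true) ↔ (∀ i ∈ U, y i = true) :=
    ⟨fun h i hi => hxy i hi ▸ h i hi, fun h i hi => (hxy i hi).symm ▸ h i hi⟩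
  simp only [hiff]

theorem abs_mob_ind_le {b : ℕ} (U : Finset (Fin b)) (f : (Fin b → Bool) → ℤ)
    (hf : ∀ y, |f y| ≤ 1) : |mob U f| ≤ 2 ^ b := by
  refine (abs_sum_le_sum_abs _ _).trans ?_
  refine (sum_le_sum (g := fun _ => (1 : ℤ)) fun W _ => ?_).trans ?_
  · rw [abs_mul, abs_pow, abs_neg, abs_one, one_pow, one_mul]
    exact hf _
  · rw [sum_const, card_powerset, nsmul_eq_mul, mul_one, Nat.cast_pow]
    exact pow_le_pow_right₀ (by norm_num) ((card_le_univ U).trans (by simp))

theorem mob_cast {b : ℕ} (U : Finset (Fin b)) (f : (Fin b → Bool) → ℤ) :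
    ((mob U f : ℤ) : ℝ) = mob U (fun y => (f y : ℝ)) := by
  simp [mob, Int.cast_sum]

end Vale.Agent.P047D
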