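import Mathlib

namespace Vale.Agent.P047D

open Finset

/-- The sign of a bit. -/
def sg (b : Bool) : ℝ := if b then 1 else -1

/-- The functions that depend only on the coordinates in some set of at most `d` of them. -/
def juntas (ι : Type) (d : ℕ) : Set ((ι → Bool) → ℝ) :=
  {g | ∃ S : Finset ι, S.card ≤ d ∧ ∀ x y, (∀ i ∈ S, x i = y i) → g x = g y}

/-- Real degree at most `d`, as membership in the span of juntas. -/
def DegLE {ι : Type} (d : ℕ) (f : (ι → Bool) → ℝ) : Prop :=
  f ∈ Submodule.span ℝ (juntas ι d)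

/-- The sum of all coordinates as signs. -/
def sumSg {ι : Type} [Fintype ι] (x : ι → Bool) : ℝ := ∑ i, sg (x i)

/-- Mean over the cube. -/
noncomputable def mean {ι : Type} [Fintype ι] [DecidableEq ι] (f : (ι → Bool) → ℝ) : ℝ :=
  (∑ x, f x) / 2 ^ Fintype.card ι

/-- Sum of the level-one Fourier coefficients. -/
noncomputable def lvl1 {ι : Type} [Fintype ι] [DecidableEq ι] (f : (ι → Bool) → ℝ) : ℝ :=
  mean fun x => f x * sumSg x

/-- The bounded trigonometric stand-in for the sign function. -/
noncomputable def trigH (t : ℝ) : ℝ :=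
  6 / 5 * Real.sin t + 3 / 10 * Real.sin (3 * t) + 1 / 10 * Real.sin (5 * t)

/-- The clipped sign sum of a block, zero on the junk set. -/
noncomputable def clipV {b : ℕ} (L : ℝ) (J : Finset (Fin b → Bool)) (y : Fin b → Bool) : ℝ :=
  if y ∈ J ∨ L * Real.sqrt b < |sumSg y| then 0 else sumSg y

end Vale.Agent.P047D
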