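import Vale.Agent.P047D.Defs

namespace Vale.Agent.P047D

open Finset

variable {ι : Type} {d e : ℕ} {f g : (ι → Bool) → ℝ}

theorem DegLE.of_junta' (S : Finset ι) (hS : S.card ≤ d)
    (h : ∀ x y, (∀ i ∈ S, x i = y i) → f x = f y) : DegLE d f :=
  Submodule.subset_span ⟨S, hS, h⟩

theorem DegLE.const' (c : ℝ) : DegLE d (fun _ : ι → Bool => c) :=
  DegLE.of_junta' ∅ (by simp) (fun _ _ _ => rfl)

theorem DegLE.zero' : DegLE d (fun _ : ι → Bool => (0 : ℝ)) := DegLE.const' 0

theorem DegLE.mono' (hde : d ≤ e) (hf : DegLE d f) : DegLE e f :=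
  Submodule.span_mono (show juntas ι d ⊆ juntas ι e from fun _ ⟨S, hS, h⟩ => ⟨S, hS.trans hde, h⟩) hf

theorem DegLE.add' (hf : DegLE d f) (hg : DegLE d g) : DegLE d (fun x => f x + g x) :=
  Submodule.add_mem _ hf hg

theorem DegLE.sub' (hf : DegLE d f) (hg : DegLE d g) : DegLE d (fun x => f x - g x) :=
  Submodule.sub_mem _ hf hg

theorem DegLE.smul' (c : ℝ) (hf : DegLE d f) : DegLE d (fun x => c * f x) :=
  Submodule.smul_mem _ c hf

theorem DegLE.sum' {κ : Type} (s : Finset κ) (F : κ → (ι → Bool) → ℝ)
    (hF : ∀ k ∈ s, DegLE d (F k)) : DegLE d (fun x => ∑ k ∈ s, F k x) := by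
  have h : (fun x => ∑ k ∈ s, F k x) = ∑ k ∈ s, F k := by
    funext x; rw [Finset.sum_apply]
  rw [h]
  exact Submodule.sum_mem _ hF

theorem DegLE.mul' (hf : DegLE d f) (hg : DegLE e g) : DegLE (d + e) (fun x => f x * g x) := by
  classical
  unfold DegLE at hf hg
  induction hf using Submodule.span_induction with
  | mem u hu =>
    obtain ⟨S, hS, hu⟩ := hu
    induction hg using Submodule.span_induction with
    | mem v hv =>
      obtain ⟨T, hT, hv⟩ := hv
      refine DegLE.of_junta' (S ∪ T) ((card_union_le S T).trans (add_le_add hS hT)) ?_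
      intro x y h
      show u x * v x = u y * v y
      rw [hu x y (fun i hi => h i (mem_union_left T hi)),
        hv x y (fun i hi => h i (mem_union_right S hi))]
    | zero => simpa using DegLE.zero' (ι := ι) (d := d + e)
    | add v w _ _ hv hw => simpa [mul_add] using DegLE.add' hv hw
    | smul c v _ hv => simpa [mul_left_comm] using DegLE.smul' c hv
  | zero => simpa using DegLE.zero' (ι := ι) (d := d + e)
  | add u v _ _ hu hv => simpa [add_mul] using DegLE.add' hu hv
  | smul c u _ hu => simpa [mul_assoc] using DegLE.smul' c hu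

theorem DegLE.prod' {κ : Type} (s : Finset κ) (F : κ → (ι → Bool) → ℝ)
    (hF : ∀ k ∈ s, DegLE d (F k)) : DegLE (s.card * d) (fun x => ∏ k ∈ s, F k x) := by
  classical
  induction s using Finset.induction_on with
  | empty => simpa using DegLE.const' (ι := ι) (d := 0) 1
  | insert a s ha ih =>
    have h1 := DegLE.mul' (hF a (mem_insert_self a s))
      (ih fun k hk => hF k (mem_insert_of_mem hk))
    simp only [prod_insert ha]
    exact h1.mono' (le_of_eq (by rw [card_insert_of_notMem ha]; ring))

/-- Reading some of the coordinates does not raise the degree. -/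
theorem DegLE.comap' {κ : Type} {f : (κ → Bool) → ℝ} (e' : κ → ι) (hf : DegLE d f) :
    DegLE d (fun x : ι → Bool => f (fun k => x (e' k))) := by
  classical
  unfold DegLE at hf
  induction hf using Submodule.span_induction with
  | mem u hu =>
    obtain ⟨S, hS, hu⟩ := hu
    exact DegLE.of_junta' (S.image e') (card_image_le.trans hS)
      (fun x y h => hu _ _ fun k hk => h _ (mem_image_of_mem e' hk))
  | zero => exact DegLE.zero'
  | add u v _ _ hu hv => exact DegLE.add' hu hv
  | smul c u _ hu => exact DegLE.smul' c hu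

end Vale.Agent.P047D
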