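import Vale.Agent.P047D.Count

namespace Vale.Agent.P047D

open Finset

/-- The indicator of one class of a labelling. -/
def cls {b P : ℕ} (u : (Fin b → Bool) → ZMod P) (l : ZMod P) : (Fin b → Bool) → ℤ :=
  fun y => if u y = l then 1 else 0

/-- Labellings all classes of which have degree at most `D`. -/
noncomputable def exactFam (b P D : ℕ) [NeZero P] : Finset ((Fin b → Bool) → ZMod P) := by
  classical
  exact univ.filter fun u => ∀ l, ∀ U : Finset (Fin b), D < U.card → mob U (cls u l) = 0

theorem mem_exactFam {b P D : ℕ} [NeZero P] {u : (Fin b → Bool) → ZMod P} :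
    u ∈ exactFam b P D ↔ ∀ l, ∀ U : Finset (Fin b), D < U.card → mob U (cls u l) = 0 := by
  simp [exactFam]

/-- Glue two labellings along a new first coordinate. -/
def glue {b P : ℕ} (p : ((Fin b → Bool) → ZMod P) × ((Fin b → Bool) → ZMod P)) :
    (Fin (b + 1) → Bool) → ZMod P :=
  fun y => if y 0 then p.2 (Fin.tail y) else p.1 (Fin.tail y)

theorem glue_injective {b P : ℕ} : Function.Injective (glue (b := b) (P := P)) := by
  intro p p' h
  refine Prod.ext ?_ ?_ <;> funext y
  · simpa [glue] using congr_fun h (Fin.cons false y)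
  · simpa [glue] using congr_fun h (Fin.cons true y)

/-- The sets not containing the new coordinate and those containing it. -/
theorem finset_fin_succ {b : ℕ} (U : Finset (Fin (b + 1))) :
    ∃ V : Finset (Fin b), U = V.map (Fin.succEmb b) ∨ U = insert 0 (V.map (Fin.succEmb b)) := by
  refine ⟨univ.filter fun i => i.succ ∈ U, ?_⟩
  by_cases h0 : (0 : Fin (b + 1)) ∈ U
  · right
    ext i
    refine Fin.cases ?_ ?_ i <;> simp [h0]
  · left
    ext i
    refine Fin.cases ?_ ?_ i <;> simp [h0]

theorem zero_notMem_map {b : ℕ} (V : Finset (Fin b)) :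
    (0 : Fin (b + 1)) ∉ V.map (Fin.succEmb b) := by
  simp

theorem point_succ {b : ℕ} (W : Finset (Fin b)) :
    (fun i => decide (i ∈ W.map (Fin.succEmb b))) = Fin.cons false (fun i => decide (i ∈ W)) ∧
    (fun i => decide (i ∈ insert 0 (W.map (Fin.succEmb b))))
      = Fin.cons true (fun i => decide (i ∈ W)) := by
  constructor <;> funext i <;> refine Fin.cases ?_ ?_ i <;> simp

theorem mob_map_succ {b : ℕ} (V : Finset (Fin b)) (f : (Fin (b + 1) → Bool) → ℤ) :
    mob (V.map (Fin.succEmb b)) f = mob V (fun y => f (Fin.cons false y)) ∧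
    mob (insert 0 (V.map (Fin.succEmb b))) f
      = mob V (fun y => f (Fin.cons true y)) - mob V (fun y => f (Fin.cons false y)) := by
  have hmap : (V.map (Fin.succEmb b)).powerset
      = V.powerset.image fun W => W.map (Fin.succEmb b) := by
    ext U
    simp only [mem_powerset, mem_image]
    constructor
    · intro hU
      refine ⟨univ.filter fun i => i.succ ∈ U, fun i hi => ?_, ?_⟩
      · have := hU (mem_filter.1 hi).2
        simpa using this
      · ext i
        refine Fin.cases ?_ ?_ i
        · simpa using fun h => zero_notMem_map V (hU h)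
        · simp
    · rintro ⟨W, hW, rfl⟩
      exact map_subset_map.2 hW
  have hinj : ∀ W ∈ V.powerset, ∀ W' ∈ V.powerset,
      W.map (Fin.succEmb b) = W'.map (Fin.succEmb b) → W = W' :=
    fun W _ W' _ h => map_injective _ h
  have h1 : ∀ g : (Fin (b + 1) → Bool) → ℤ,
      mob (V.map (Fin.succEmb b)) g = mob V (fun y => g (Fin.cons false y)) := by
    intro g
    simp only [mob]
    rw [hmap, sum_image hinj]
    refine sum_congr rfl fun W hW => ?_
    rw [← Finset.map_sdiff, card_map, (point_succ W).1]
  refine ⟨h1 f, ?_⟩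
  simp only [mob]
  rw [sum_powerset_insert (zero_notMem_map V), hmap, sum_image hinj, sum_image hinj,
    ← sum_sub_distrib, ← sum_add_distrib]
  refine sum_congr rfl fun W hW => ?_
  rw [(point_succ W).1, (point_succ W).2]
  have e1 : (insert 0 (V.map (Fin.succEmb b)) \ W.map (Fin.succEmb b)).card
      = (V \ W).card + 1 := by
    rw [insert_sdiff_of_notMem _ (zero_notMem_map W), card_insert_of_notMem, ← Finset.map_sdiff, card_map]
    simp
  have e2 : (insert 0 (V.map (Fin.succEmb b)) \ insert 0 (W.map (Fin.succEmb b))).card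
      = (V \ W).card := by
    have : insert 0 (V.map (Fin.succEmb b)) \ insert 0 (W.map (Fin.succEmb b))
        = V.map (Fin.succEmb b) \ W.map (Fin.succEmb b) := by
      ext i
      refine Fin.cases ?_ ?_ i <;> simp
    rw [this, ← Finset.map_sdiff, card_map]
  rw [e1, e2, pow_succ]
  ring

theorem mob_abs_cls {b P : ℕ} (U : Finset (Fin b)) (u : (Fin b → Bool) → ZMod P) (l : ZMod P) :
    mob U (cls u l) ∈ Icc (-(2 : ℤ) ^ b) (2 ^ b) := by
  rw [mem_Icc]
  refine abs_le.1 (abs_mob_ind_le U _ fun y => ?_)
  unfold cls; split_ifs <;> simp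

theorem card_Icc_le (b B : ℕ) (h : b ≤ B) :
    (Icc (-(2 : ℤ) ^ b) (2 ^ b)).card ≤ 2 ^ (B + 2) := by
  rw [Int.card_Icc, Int.toNat_le]
  have h1 : (1 : ℤ) ≤ 2 ^ b := one_le_pow₀ (by norm_num)
  have h2 : (2 : ℤ) ^ b ≤ 2 ^ B := pow_le_pow_right₀ (by norm_num) h
  push_cast
  rw [pow_add]
  linarith

/-- The vector of the level-`D` coefficients. -/
def levelVec {b P : ℕ} (D : ℕ) (u : (Fin b → Bool) → ZMod P) :
    ZMod P × {U : Finset (Fin b) // U.card = D} → ℤ :=
  fun k => mob k.2.1 (cls u k.1)

theorem glue_mem {b P D : ℕ} [NeZero P]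
    {p : ((Fin b → Bool) → ZMod P) × ((Fin b → Bool) → ZMod P)}
    (h1 : p.1 ∈ exactFam b P D) (h2 : p.2 ∈ exactFam b P D)
    (h : levelVec D p.1 = levelVec D p.2) : glue p ∈ exactFam (b + 1) P D := by
  rw [mem_exactFam] at *
  intro l U hU
  have e1 : (fun y => cls (glue p) l (Fin.cons false y)) = cls p.1 l := by
    funext y; simp [cls, glue]
  have e2 : (fun y => cls (glue p) l (Fin.cons true y)) = cls p.2 l := by
    funext y; simp [cls, glue]
  obtain ⟨V, rfl | rfl⟩ := finset_fin_succ U
  · rw [card_map] at hU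
    rw [(mob_map_succ V _).1, e1]
    exact h1 l V hU
  · rw [card_insert_of_notMem (zero_notMem_map V), card_map] at hU
    rw [(mob_map_succ V _).2, e1, e2, sub_eq_zero]
    rcases eq_or_lt_of_le (Nat.lt_succ_iff.1 hU) with hV | hV
    · exact (congr_fun h (l, ⟨V, hV.symm⟩)).symm
    · rw [h1 l V hV, h2 l V hV]

/-- Cauchy doubling: there are very many exact labellings. -/
theorem count_aux (P D B : ℕ) [NeZero P] : ∀ b ≤ B,
    P ^ 2 ^ b ≤ (exactFam b P D).card * (2 ^ (B + 2)) ^ (P * highCount b D) := by
  classical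
  intro b
  induction b with
  | zero =>
    intro _
    have huniv : exactFam 0 P D = univ := by
      refine eq_univ_iff_forall.2 fun u => mem_exactFam.2 fun l U hU => ?_
      have := card_le_univ U
      simp at this
      simp [this] at hU
    rw [huniv]
    refine le_trans ?_ (Nat.le_mul_of_pos_right _ (by positivity))
    simp [ZMod.card]
  | succ b ih =>
    intro hb
    have hbB : b ≤ B := by omega
    set F := exactFam b P D with hF
    set T := Fintype.piFinset fun _ : ZMod P × {U : Finset (Fin b) // U.card = D} =>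
      Icc (-(2 : ℤ) ^ b) (2 ^ b) with hT
    have hmaps : ∀ u ∈ F, levelVec D u ∈ T := fun u _ =>
      Fintype.mem_piFinset.2 fun k => mob_abs_cls _ u k.1
    have hTcard : T.card ≤ (2 ^ (B + 2)) ^ (P * b.choose D) := by
      rw [hT, Fintype.card_piFinset, prod_const, card_univ, Fintype.card_prod, ZMod.card,
        Fintype.card_finset_len, Fintype.card_fin]
      exact Nat.pow_le_pow_left (card_Icc_le b B hbB) _
    set G := (F ×ˢ F).filter fun p => levelVec D p.1 = levelVec D p.2 with hG
    have hGle : G.card ≤ (exactFam (b + 1) P D).card := by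
      refine card_le_card_of_injOn glue (fun p hp => ?_) (glue_injective.injOn)
      rw [hG, mem_coe, mem_filter, mem_product] at hp
      exact glue_mem hp.1.1 hp.1.2 hp.2
    have hfib : G.card = ∑ t ∈ T, (F.filter fun u => levelVec D u = t).card ^ 2 := by
      rw [card_eq_sum_card_fiberwise (f := fun p => levelVec D p.1) (t := T)]
      · refine sum_congr rfl fun t _ => ?_
        rw [sq, ← card_product]
        congr 1
        ext p
        simp only [hG, mem_filter, mem_product]
        constructor
        · rintro ⟨⟨⟨h1, h2⟩, h3⟩, h4⟩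
          exact ⟨⟨h1, h4⟩, h2, h3 ▸ h4⟩
        · rintro ⟨⟨h1, h4⟩, h2, h5⟩
          exact ⟨⟨⟨h1, h2⟩, h4.trans h5.symm⟩, h4⟩
      · intro p hp
        rw [hG, mem_coe, mem_filter, mem_product] at hp
        exact hmaps _ hp.1.1
    have hcs : F.card ^ 2 ≤ T.card * G.card := by
      rw [hfib, card_eq_sum_card_fiberwise (f := levelVec D) (t := T) hmaps]
      exact sq_sum_le_card_mul_sum_sq
    have hpascal : highCount (b + 1) D = 2 * highCount b D + b.choose D := by
      have hc : ∀ n, highCount n D = ∑ m ∈ range (n + 1), if D < m then n.choose m else 0 := by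
        intro n
        unfold highCount
        rw [← powerset_univ, card_filter, sum_powerset_apply_card (f := fun m => if D < m then 1 else 0)]
        simp
      rw [hc, hc, sum_range_succ' (n := b + 1)]
      simp only [Nat.choose_succ_succ, Nat.not_lt_zero, if_false, add_zero]
      have e : ∀ m, (if D < m + 1 then b.choose m + b.choose (m + 1) else 0)
          = (if D < m then b.choose m else 0) + (if m = D then b.choose D else 0)
            + (if D < m + 1 then b.choose (m + 1) else 0) := by
        intro m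
        split_ifs <;> first | omega | (subst_vars; omega)
      simp only [Nat.succ_eq_add_one, e, sum_add_distrib, sum_ite_eq', mem_range]
      have e2 : (if D < b + 1 then b.choose D else 0) = b.choose D := by
        split_ifs with hD
        · rfl
        · rw [Nat.choose_eq_zero_of_lt (by omega)]
      have e3 : ∑ m ∈ range (b + 1), (if D < m + 1 then b.choose (m + 1) else 0)
          = ∑ m ∈ range (b + 1), if D < m then b.choose m else 0 := by
        rw [sum_range_succ, sum_range_succ' (n := b)]
        simp [Nat.choose_succ_self]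
      rw [e2, e3]
      ring
    set R := 2 ^ (B + 2) with hR
    calc P ^ 2 ^ (b + 1) = (P ^ 2 ^ b) ^ 2 := by rw [← pow_mul, pow_succ]
      _ ≤ (F.card * R ^ (P * highCount b D)) ^ 2 := Nat.pow_le_pow_left (ih hbB) 2
      _ = F.card ^ 2 * R ^ (2 * (P * highCount b D)) := by ring
      _ ≤ (R ^ (P * b.choose D) * (exactFam (b + 1) P D).card) * R ^ (2 * (P * highCount b D)) :=
          Nat.mul_le_mul_right _ (hcs.trans (Nat.mul_le_mul hTcard hGle))
      _ = (exactFam (b + 1) P D).card * R ^ (P * highCount (b + 1) D) := by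
          rw [hpascal]; ring

/-- Hoeffding bound for the number of high sets. -/
theorem highCount_le (b D : ℕ) (δ : ℝ) (hδ : 0 ≤ δ) (hD : (1 / 2 + δ) * b ≤ D + 1) :
    (highCount b D : ℝ) ≤ 2 ^ b * Real.exp (-(2 * δ ^ 2 * b)) := by
  have h1 : (highCount b D : ℝ) * Real.exp (4 * δ ^ 2 * b)
      ≤ ∑ U : Finset (Fin b), Real.exp (2 * δ * (2 * U.card - b)) := by
    unfold highCount
    rw [← nsmul_eq_mul, ← sum_const]
    refine le_trans (sum_le_sum fun U hU => ?_)
      (sum_le_sum_of_subset_of_nonneg (filter_subset _ _) fun U _ _ => (Real.exp_pos _).le)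
    have hU' : (D : ℝ) + 1 ≤ U.card := by exact_mod_cast (mem_filter.1 hU).2
    exact Real.exp_le_exp.2 (by nlinarith)
  have h2 : ∑ U : Finset (Fin b), Real.exp (2 * δ * (2 * U.card - b))
      = (2 * Real.cosh (2 * δ)) ^ b := by
    rw [← powerset_univ, sum_powerset_apply_card
      (f := fun m => Real.exp (2 * δ * (2 * (m : ℝ) - b))), card_fin, Real.cosh_eq]
    have : (2 : ℝ) * ((Real.exp (2 * δ) + Real.exp (-(2 * δ))) / 2)
        = Real.exp (2 * δ) + Real.exp (-(2 * δ)) := by ring
    rw [this, add_pow]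
    refine sum_congr rfl fun m hm => ?_
    have hm' : m ≤ b := Nat.lt_succ_iff.1 (mem_range.1 hm)
    rw [nsmul_eq_mul, ← Real.exp_nat_mul, ← Real.exp_nat_mul, ← Real.exp_add, Nat.cast_sub hm']
    rw [mul_comm]
    congr 2
    ring
  have h3 : (2 * Real.cosh (2 * δ)) ^ b ≤ 2 ^ b * Real.exp (2 * δ ^ 2 * b) := by
    have := Real.cosh_le_exp_half_sq (2 * δ)
    calc (2 * Real.cosh (2 * δ)) ^ b ≤ (2 * Real.exp ((2 * δ) ^ 2 / 2)) ^ b := by
          refine pow_le_pow_left₀ (by have := Real.cosh_pos (2 * δ); positivity) ?_ _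
          linarith
      _ = 2 ^ b * Real.exp (2 * δ ^ 2 * b) := by
          rw [mul_pow, ← Real.exp_nat_mul]; ring_nf
  have h4 := h1.trans (h2.le.trans h3)
  have h5 : Real.exp (4 * δ ^ 2 * b) = Real.exp (2 * δ ^ 2 * b) * Real.exp (2 * δ ^ 2 * b) := by
    rw [← Real.exp_add]; ring_nf
  rw [h5, ← mul_assoc] at h4
  have h6 := le_of_mul_le_mul_right h4 (Real.exp_pos _)
  rw [Real.exp_neg, ← div_eq_mul_inv, le_div_iff₀ (Real.exp_pos _)]
  exact h6

end Vale.Agent.P047D
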