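import Vale.Agent.P047D.Defs

namespace Vale.Agent.P047D

open Finset

/-- The points of one block. -/
def blockOf {q b : ℕ} (x : Fin q × Fin b → Bool) (i : Fin q) : Fin b → Bool := fun k => x (i, k)

theorem mean_add' {ι : Type} [Fintype ι] [DecidableEq ι] (f g : (ι → Bool) → ℝ) :
    mean (fun x => f x + g x) = mean f + mean g := by
  simp [mean, sum_add_distrib, add_div]

theorem mean_mul_left' {ι : Type} [Fintype ι] [DecidableEq ι] (c : ℝ) (f : (ι → Bool) → ℝ) :
    mean (fun x => c * f x) = c * mean f := by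
  simp only [mean, ← mul_sum, mul_div_assoc]

theorem mean_sum' {ι κ : Type} [Fintype ι] [DecidableEq ι] (s : Finset κ)
    (F : κ → (ι → Bool) → ℝ) : mean (fun x => ∑ k ∈ s, F k x) = ∑ k ∈ s, mean (F k) := by
  simp only [mean, sum_comm (t := s), sum_div]

theorem mean_le' {ι : Type} [Fintype ι] [DecidableEq ι] {f g : (ι → Bool) → ℝ}
    (h : ∀ x, f x ≤ g x) : mean f ≤ mean g :=
  div_le_div_of_nonneg_right (sum_le_sum fun x _ => h x) (by positivity)

theorem mean_cauchy' {ι : Type} [Fintype ι] [DecidableEq ι] (f g : (ι → Bool) → ℝ) :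
    mean (fun x => f x * g x) ^ 2 ≤ mean (fun x => f x ^ 2) * mean fun x => g x ^ 2 := by
  simp only [mean]
  rw [div_pow, div_mul_div_comm, ← sq]
  exact div_le_div_of_nonneg_right (sum_mul_sq_le_sq_mul_sq univ f g) (by positivity)

theorem mean_blocks_prod {q b : ℕ} (h : Fin q → (Fin b → Bool) → ℝ) :
    mean (fun x : Fin q × Fin b → Bool => ∏ i, h i (blockOf x i)) = ∏ i, mean (h i) := by
  simp only [mean, Fintype.card_prod, Fintype.card_fin]
  rw [prod_div_distrib, prod_const, card_univ, Fintype.card_fin, Fintype.prod_sum,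
    ← pow_mul, mul_comm b q]
  congr 1
  exact Fintype.sum_equiv (Equiv.curry (Fin q) (Fin b) Bool) _ _ fun x => rfl

theorem mean_one' {ι : Type} [Fintype ι] [DecidableEq ι] :
    mean (fun _ : ι → Bool => (1 : ℝ)) = 1 := by
  simp [mean]

theorem mean_block_one {q b : ℕ} (i : Fin q) (f : (Fin b → Bool) → ℝ) :
    mean (fun x : Fin q × Fin b → Bool => f (blockOf x i)) = mean f := by
  have h := mean_blocks_prod (q := q) (fun j y => if j = i then f y else 1)
  have e1 : ∀ x : Fin q × Fin b → Bool,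
      (∏ j, if j = i then f (blockOf x j) else 1) = f (blockOf x i) := fun x => by
    rw [prod_ite_eq' univ i]; simp
  simp only [e1] at h
  rw [h, prod_eq_single i]
  · simp
  · intro j _ hj; simp [hj, mean_one']
  · simp

theorem mean_block_two {q b : ℕ} {i k : Fin q} (hik : i ≠ k) (f g : (Fin b → Bool) → ℝ) :
    mean (fun x : Fin q × Fin b → Bool => f (blockOf x i) * g (blockOf x k))
      = mean f * mean g := by
  have h := mean_blocks_prod (q := q)
    (fun j y => (if j = i then f y else 1) * (if j = k then g y else 1))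
  have e1 : ∀ x : Fin q × Fin b → Bool,
      (∏ j, (if j = i then f (blockOf x j) else 1) * (if j = k then g (blockOf x j) else 1))
        = f (blockOf x i) * g (blockOf x k) := fun x => by
    rw [prod_mul_distrib, prod_ite_eq' univ i, prod_ite_eq' univ k]; simp
  simp only [e1] at h
  rw [h, prod_eq_mul i k hik]
  · simp [hik, hik.symm]
  · intro j _ hj; simp [hj.1, hj.2, mean_one']
  · simp
  · simp

theorem mean_sq_block_sum {q b : ℕ} (o : (Fin b → Bool) → ℝ) (h0 : mean o = 0) :
    mean (fun x : Fin q × Fin b → Bool => (∑ i, o (blockOf x i)) ^ 2)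
      = q * mean fun y => o y ^ 2 := by
  simp only [sq (∑ i, o _), sum_mul_sum]
  rw [mean_sum']
  simp only [mean_sum']
  have e : ∀ i k : Fin q,
      mean (fun x : Fin q × Fin b → Bool => o (blockOf x i) * o (blockOf x k))
        = if i = k then mean (fun y => o y ^ 2) else 0 := by
    intro i k
    by_cases hik : i = k
    · subst hik
      rw [if_pos rfl, ← mean_block_one i (fun y => o y ^ 2)]
      simp [sq]
    · rw [if_neg hik, mean_block_two hik, h0, zero_mul]
  simp [e]

theorem flip_sum {ι : Type} [Fintype ι] [DecidableEq ι] (f : (ι → Bool) → ℝ) :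
    ∑ x : ι → Bool, f (fun i => !x i) = ∑ x, f x :=
  Equiv.sum_comp (⟨fun x i => !x i, fun x i => !x i, fun x => by simp, fun x => by simp⟩ :
    (ι → Bool) ≃ (ι → Bool)) f

theorem flip_sumSg {ι : Type} [Fintype ι] (x : ι → Bool) :
    sumSg (fun i => !x i) = -sumSg x := by
  simp only [sumSg, ← sum_neg_distrib]
  exact sum_congr rfl fun i _ => by cases x i <;> simp [sg]

theorem mean_odd_eq_zero {ι : Type} [Fintype ι] [DecidableEq ι] (φ : ℝ → ℝ)
    (hφ : ∀ t, φ (-t) = -φ t) : mean (fun x : ι → Bool => φ (sumSg x)) = 0 := by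
  have h := flip_sum (fun x : ι → Bool => φ (sumSg x))
  simp only [flip_sumSg, hφ, sum_neg_distrib] at h
  simp only [mean]
  rw [show ∑ x : ι → Bool, φ (sumSg x) = 0 by linarith, zero_div]

theorem sum_pows_sumSg : ∀ b : ℕ, ∑ y : Fin b → Bool, sumSg y ^ 2 = b * 2 ^ b ∧
    ∑ y : Fin b → Bool, sumSg y ^ 4 = (3 * (b : ℝ) ^ 2 - 2 * b) * 2 ^ b := by
  intro b
  induction b with
  | zero => simp [sumSg]
  | succ b ih =>
    have e : ∀ g : ℝ → ℝ, ∑ y : Fin (b + 1) → Bool, g (sumSg y)
        = ∑ y : Fin b → Bool, (g (1 + sumSg y) + g (-1 + sumSg y)) := by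
      intro g
      rw [← (Fin.consEquiv fun _ => Bool).sum_comp, Fintype.sum_prod_type, Fintype.sum_bool,
        ← sum_add_distrib]
      refine sum_congr rfl fun y _ => ?_
      simp [sumSg, Fin.sum_univ_succ, Fin.consEquiv, sg]
    constructor
    · rw [e fun t => t ^ 2, show (fun y : Fin b → Bool => (1 + sumSg y) ^ 2 + (-1 + sumSg y) ^ 2)
        = fun y => 2 * sumSg y ^ 2 + 2 from by funext y; ring, sum_add_distrib, ← mul_sum, ih.1]
      simp; ring
    · rw [e fun t => t ^ 4, show (fun y : Fin b → Bool => (1 + sumSg y) ^ 4 + (-1 + sumSg y) ^ 4)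
        = fun y => 2 * sumSg y ^ 4 + 12 * sumSg y ^ 2 + 2 from by funext y; ring,
        sum_add_distrib, sum_add_distrib, ← mul_sum, ← mul_sum, ih.1, ih.2]
      simp; ring

theorem mean_sumSg_pows (b : ℕ) :
    mean (fun y : Fin b → Bool => sumSg y ^ 2) = b ∧
    mean (fun y : Fin b → Bool => sumSg y ^ 4) ≤ 3 * (b : ℝ) ^ 2 := by
  obtain ⟨h2, h4⟩ := sum_pows_sumSg b
  constructor
  · simp [mean, h2]
  · simp only [mean, h4, Fintype.card_fin]
    rw [mul_div_assoc, div_self (by positivity), mul_one]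
    linarith [show (0 : ℝ) ≤ b by positivity]

theorem sumSg_blocks {q b : ℕ} (x : Fin q × Fin b → Bool) :
    sumSg x = ∑ i, sumSg (blockOf x i) := by
  simp [sumSg, blockOf, Fintype.sum_prod_type]

theorem mean_sumSg_sq_prod (q b : ℕ) :
    mean (fun x : Fin q × Fin b → Bool => sumSg x ^ 2) = q * b := by
  simp only [sumSg_blocks]
  rw [mean_sq_block_sum _ (mean_odd_eq_zero (fun t => t) fun t => rfl), (mean_sumSg_pows b).1]

/-- Clipping and junk cost little in the second moment. -/
theorem clip_err (q b : ℕ) (L γ : ℝ) (hL : 0 < L) (hγ : 0 ≤ γ) (J : Finset (Fin b → Bool))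
    (hJ : (J.card : ℝ) ≤ γ * 2 ^ b) :
    mean (fun x : Fin q × Fin b → Bool => |(∑ i, clipV L J (blockOf x i)) - sumSg x| * |sumSg x|)
      ≤ q * b * Real.sqrt (6 / L ^ 2 + 2 * q * Real.sqrt (3 * γ)) := by
  classical
  rcases Nat.eq_zero_or_pos b with hb | hb
  · subst hb
    have h0 : ∀ x : Fin q × Fin 0 → Bool, sumSg x = 0 := fun x => by simp [sumSg]
    simp [h0, mean]
  let o : (Fin b → Bool) → ℝ := fun y =>
    if L * Real.sqrt b < |sumSg y| then -sumSg y else 0
  let j : (Fin b → Bool) → ℝ := fun y =>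
    if y ∈ J ∧ ¬ L * Real.sqrt b < |sumSg y| then -sumSg y else 0
  have hd : ∀ y, clipV L J y - sumSg y = o y + j y := by
    intro y
    by_cases h1 : y ∈ J <;> by_cases h2 : L * Real.sqrt b < |sumSg y| <;>
      simp [clipV, o, j, h1, h2]
  have hs : 0 < L * Real.sqrt b := by positivity
  obtain ⟨hm2, hm4⟩ := mean_sumSg_pows b
  have ho0 : mean o = 0 := by
    refine mean_odd_eq_zero (fun t => if L * Real.sqrt b < |t| then -t else 0) fun t => ?_
    simp only [abs_neg]
    split_ifs <;> simp
  have ho2 : mean (fun y => o y ^ 2) ≤ 3 * b / L ^ 2 := by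
    have : mean (fun y => o y ^ 2) ≤ mean fun y : Fin b → Bool => 1 / (L ^ 2 * b) * sumSg y ^ 4 := by
      refine mean_le' fun y => ?_
      rw [one_div_mul_eq_div, le_div_iff₀ (by positivity)]
      by_cases h2 : L * Real.sqrt b < |sumSg y|
      · have h3 := mul_self_le_mul_self hs.le h2.le
        rw [abs_mul_abs_self, mul_mul_mul_comm, Real.mul_self_sqrt (by positivity)] at h3
        simp only [o, if_pos h2, neg_sq]
        nlinarith [mul_le_mul_of_nonneg_left h3 (sq_nonneg (sumSg y))]
      · simp only [o, if_neg h2]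
        nlinarith [sq_nonneg (sumSg y ^ 2)]
    refine this.trans ?_
    rw [mean_mul_left']
    refine (mul_le_mul_of_nonneg_left hm4 (by positivity)).trans (le_of_eq ?_)
    field_simp
  have hj2 : mean (fun y => j y ^ 2) ≤ b * Real.sqrt (3 * γ) := by
    let w : (Fin b → Bool) → ℝ := fun y => if y ∈ J then 1 else 0
    have h1 : mean (fun y => j y ^ 2) ≤ mean fun y => w y * sumSg y ^ 2 := by
      refine mean_le' fun y => ?_
      simp only [w, j]
      by_cases h1 : y ∈ J <;> by_cases h2 : L * Real.sqrt b < |sumSg y|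
      · rw [if_neg (fun h => h.2 h2), if_pos h1]; nlinarith [sq_nonneg (sumSg y)]
      · rw [if_pos ⟨h1, h2⟩, if_pos h1]; nlinarith [sq_nonneg (sumSg y)]
      · rw [if_neg (fun h => h1 h.1), if_neg h1]; nlinarith
      · rw [if_neg (fun h => h1 h.1), if_neg h1]; nlinarith
    have h2 : mean (fun y => w y ^ 2) ≤ γ := by
      simp only [w, mean, Fintype.card_fin, ite_pow, one_pow, ne_eq, OfNat.ofNat_ne_zero,
        not_false_eq_true, zero_pow, sum_boole, filter_univ_mem]
      rw [div_le_iff₀ (by positivity)]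
      exact hJ
    have h3 := mean_cauchy' w (fun y => sumSg y ^ 2)
    have h4 : mean (fun y : Fin b → Bool => (sumSg y ^ 2) ^ 2) ≤ 3 * (b : ℝ) ^ 2 := by
      simpa [← pow_mul] using hm4
    have h5 : mean (fun y => w y * sumSg y ^ 2) ^ 2 ≤ (b * Real.sqrt (3 * γ)) ^ 2 := by
      refine h3.trans ((mul_le_mul h2 h4 ?_ hγ).trans ?_)
      · simp only [mean]; positivity
      · rw [mul_pow, Real.sq_sqrt (by positivity)]; linarith
    exact h1.trans (le_abs_self _ |>.trans
      (abs_le_of_sq_le_sq h5 (by positivity)))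
  have hD : mean (fun x : Fin q × Fin b → Bool =>
      |(∑ i, clipV L J (blockOf x i)) - sumSg x| ^ 2)
      ≤ q * b * (6 / L ^ 2 + 2 * q * Real.sqrt (3 * γ)) := by
    have e : ∀ x : Fin q × Fin b → Bool, |(∑ i, clipV L J (blockOf x i)) - sumSg x| ^ 2
        ≤ 2 * (∑ i, o (blockOf x i)) ^ 2 + 2 * ((q : ℝ) * ∑ i, j (blockOf x i) ^ 2) := by
      intro x
      rw [sq_abs, sumSg_blocks, ← sum_sub_distrib]
      simp only [hd, sum_add_distrib]
      have h := sq_sum_le_card_mul_sum_sq (s := (univ : Finset (Fin q)))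
        (f := fun i => j (blockOf x i))
      simp only [card_univ, Fintype.card_fin] at h
      nlinarith [sq_nonneg ((∑ i, o (blockOf x i)) - ∑ i, j (blockOf x i))]
    refine (mean_le' e).trans ?_
    rw [mean_add', mean_mul_left', mean_mul_left', mean_mul_left', mean_sq_block_sum o ho0,
      mean_sum']
    simp only [mean_block_one (f := fun y => j y ^ 2), sum_const, card_univ, Fintype.card_fin,
      nsmul_eq_mul]
    calc 2 * ((q : ℝ) * mean fun y => o y ^ 2) + 2 * ((q : ℝ) * (q * mean fun y => j y ^ 2))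
        ≤ 2 * ((q : ℝ) * (3 * b / L ^ 2)) + 2 * ((q : ℝ) * (q * (b * Real.sqrt (3 * γ)))) := by
          gcongr
      _ = _ := by ring
  have hc := mean_cauchy' (fun x : Fin q × Fin b → Bool =>
    |(∑ i, clipV L J (blockOf x i)) - sumSg x|) (fun x => |sumSg x|)
  have hS : mean (fun x : Fin q × Fin b → Bool => |sumSg x| ^ 2) = q * b := by
    simpa [sq_abs] using mean_sumSg_sq_prod q b
  rw [hS] at hc
  refine (le_abs_self _).trans (abs_le_of_sq_le_sq ?_ (by positivity))
  refine hc.trans ((mul_le_mul_of_nonneg_right hD (by positivity)).trans (le_of_eq ?_))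
  rw [mul_pow, Real.sq_sqrt (by positivity)]
  ring

end Vale.Agent.P047D
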