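import Vale.Agent.P047D.Block
import Vale.Agent.P047D.Moments

namespace Vale.Agent.P047D

open Finset

variable {q b P : ℕ}

/-- The profile of states of a point. -/
def profile (J : Finset (Fin b → Bool)) (x : Fin q × Fin b → Bool) : Fin q → Option (Fin (b + 1)) :=
  fun i => stateOf J (blockOf x i)

/-- The sum of the labels of the blocks. -/
def labelSum (u : (Fin b → Bool) → ZMod P) (x : Fin q × Fin b → Bool) : ZMod P :=
  ∑ i, u (blockOf x i)

theorem card_val_lt [NeZero P] (k : ℕ) (hk : k ≤ P) :
    (univ.filter fun z : ZMod P => z.val < k).card = k := by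
  refine (card_bij (fun z _ => z.val) (t := range k) ?_ ?_ ?_).trans (card_range k)
  · intro z hz; exact mem_range.2 (mem_filter.1 hz).2
  · intro z _ z' _ h; exact ZMod.val_injective P h
  · intro m hm
    have hm' : m < P := lt_of_lt_of_le (mem_range.1 hm) hk
    exact ⟨(m : ZMod P), mem_filter.2 ⟨mem_univ _, by
      rw [ZMod.val_natCast_of_lt hm']; exact mem_range.1 hm⟩, ZMod.val_natCast_of_lt hm'⟩

theorem sum_shift_ind [NeZero P] (k : ℕ) (hk : k ≤ P) (s : ZMod P) :
    ∑ r : ZMod P, (if (s + r).val < k then (1 : ℝ) else 0) = k := by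
  have h := Equiv.sum_comp (Equiv.addLeft s) (fun z : ZMod P => if z.val < k then (1 : ℝ) else 0)
  refine h.trans ?_
  rw [sum_boole, card_val_lt k hk]

/-- A balanced function of the label sum, block states given, has only full label interactions. -/
theorem degLE_interaction [NeZero P] (D : ℕ) (J : Finset (Fin b → Bool))
    (u : (Fin b → Bool) → ZMod P) (hu : ∀ s l, DegLE D (centred J u s l))
    (e : (Fin q → Option (Fin (b + 1))) → ZMod P → ℝ) (he : ∀ A, ∑ l, e A l = 0) :
    DegLE (q * D) (fun x : Fin q × Fin b → Bool => e (profile J x) (labelSum u x)) := by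
  classical
  let cst : Option (Fin (b + 1)) → (Fin b → Bool) → ℝ :=
    fun s y => if stateOf J y = s then (1 : ℝ) / P else 0
  have hexp : ∀ x : Fin q × Fin b → Bool, e (profile J x) (labelSum u x)
      = ∑ A : Fin q → Option (Fin (b + 1)), ∑ l : Fin q → ZMod P,
          e A (∑ i, l i) * ∏ i, centred J u (A i) (l i) (blockOf x i) := by
    intro x
    have h1 : ∀ A : Fin q → Option (Fin (b + 1)), ∀ l : Fin q → ZMod P,
        ∏ i, (centred J u (A i) (l i) (blockOf x i) + cst (A i) (blockOf x i))
          = if A = profile J x ∧ l = (fun i => u (blockOf x i)) then 1 else 0 := by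
      intro A l
      simp only [centred, cst, sub_add_cancel]
      split_ifs with h
      · refine prod_eq_one fun i _ => if_pos ⟨?_, ?_⟩
        · exact (congr_fun h.1 i).symm
        · exact (congr_fun h.2 i).symm
      · obtain ⟨i, hi⟩ : ∃ i, ¬(stateOf J (blockOf x i) = A i ∧ u (blockOf x i) = l i) := by
          by_contra hcon
          push Not at hcon
          exact h ⟨funext fun i => (hcon i).1.symm, funext fun i => (hcon i).2.symm⟩
        exact prod_eq_zero (mem_univ i) (if_neg hi)
    have h2 : e (profile J x) (labelSum u x)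
        = ∑ A : Fin q → Option (Fin (b + 1)), ∑ l : Fin q → ZMod P, e A (∑ i, l i) *
          ∏ i, (centred J u (A i) (l i) (blockOf x i) + cst (A i) (blockOf x i)) := by
      simp only [h1]
      rw [sum_eq_single (profile J x), sum_eq_single (fun i => u (blockOf x i))]
      · simp [labelSum]
      · intro l _ hl; simp [hl]
      · simp
      · intro A _ hA; simp [hA]
      · simp
    rw [h2]
    refine sum_congr rfl fun A _ => ?_
    simp only [prod_add, mul_sum]
    rw [sum_comm, sum_eq_single (univ : Finset (Fin q))]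
    · simp
    · intro I _ hI
      obtain ⟨j, hj⟩ : ∃ j, j ∉ I := not_forall.1 fun h => hI (eq_univ_iff_forall.2 h)
      set h : (Fin q → ZMod P) → ℝ := fun l => (∏ i ∈ I, centred J u (A i) (l i) (blockOf x i))
        * ∏ i ∈ univ \ I, cst (A i) (blockOf x i) with hh
      have hinv : ∀ t : ZMod P,
          ∑ l, e A (∑ i, l i) * h l = ∑ l, e A ((∑ i, l i) + t) * h l := by
        intro t
        rw [← Equiv.sum_comp (Equiv.addRight (Pi.single j t : Fin q → ZMod P))
          (fun l => e A (∑ i, l i) * h l)]
        refine sum_congr rfl fun l _ => ?_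
        simp only [Equiv.coe_addRight, Pi.add_apply, sum_add_distrib, sum_pi_single', mem_univ,
          if_true, hh]
        congr 2
        refine prod_congr rfl fun i hi => ?_
        have hij : i ≠ j := fun h => hj (h ▸ hi)
        rw [Pi.single_eq_of_ne hij, add_zero]
      have hsum : (P : ℝ) * ∑ l, e A (∑ i, l i) * h l = 0 := by
        calc (P : ℝ) * ∑ l, e A (∑ i, l i) * h l
            = ∑ t : ZMod P, ∑ l, e A ((∑ i, l i) + t) * h l := by
              rw [← sum_congr rfl fun t _ => hinv t, sum_const, card_univ, ZMod.card, nsmul_eq_mul]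
          _ = 0 := by
              rw [sum_comm]
              refine sum_eq_zero fun l _ => ?_
              have := Equiv.sum_comp (Equiv.addLeft (∑ i, l i)) (e A)
              simp only [Equiv.coe_addLeft] at this
              rw [← sum_mul, this, he, zero_mul]
      exact (mul_eq_zero.1 hsum).resolve_left (Nat.cast_ne_zero.2 (NeZero.ne P))
    · simp
  simp only [hexp]
  refine DegLE.sum' _ _ fun A _ => DegLE.sum' _ _ fun l _ => DegLE.smul' _ ?_
  have hp := DegLE.prod' (ι := Fin q × Fin b) (univ : Finset (Fin q))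
    (fun i x => centred J u (A i) (l i) (blockOf x i))
    (fun i _ => DegLE.comap' (f := centred J u (A i) (l i)) (fun k => (i, k)) (hu _ _))
  simpa using hp

/-- The block construction: some shift keeps the level-one sum of the averaged profile function. -/
theorem exists_select [NeZero P] (D Dq : ℕ) (J : Finset (Fin b → Bool))
    (u : (Fin b → Bool) → ZMod P) (hu : ∀ s l, DegLE D (centred J u s l))
    (c : Finset (Fin q) → (Fin q → Option (Fin (b + 1))) → ℤ)
    (hc : ∀ I A A', (∀ i ∈ I, A i = A' i) → c I A = c I A')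
    (h0 : ∀ A, 0 ≤ ∑ I ∈ univ.filter (fun I => I.card ≤ Dq), c I A)
    (hP : ∀ A, ∑ I ∈ univ.filter (fun I => I.card ≤ Dq), c I A ≤ P) :
    ∃ f : (Fin q × Fin b → Bool) → ℝ, (∀ x, f x = 1 ∨ f x = -1) ∧
      DegLE (max (q * D) (Dq * b)) f ∧
      lvl1 (fun x : Fin q × Fin b → Bool => 2 *
        (((∑ I ∈ univ.filter (fun I => I.card ≤ Dq), c I (profile J x) : ℤ) : ℝ) / P) - 1)
        ≤ lvl1 f := by
  classical
  set kk : (Fin q → Option (Fin (b + 1))) → ℤ :=
    fun A => ∑ I ∈ univ.filter (fun I => I.card ≤ Dq), c I A with hkk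
  set k : (Fin q → Option (Fin (b + 1))) → ℕ := fun A => (kk A).toNat with hk
  have hcast : ∀ A, (k A : ℝ) = (kk A : ℝ) := by
    intro A
    rw [hk]
    exact_mod_cast Int.toNat_of_nonneg (h0 A)
  have hkP : ∀ A, k A ≤ P := fun A => Int.toNat_le.2 (hP A)
  let f : ZMod P → (Fin q × Fin b → Bool) → ℝ :=
    fun r x => if (labelSum u x + r).val < k (profile J x) then 1 else -1
  set g : (Fin q × Fin b → Bool) → ℝ := fun x => 2 * ((kk (profile J x) : ℝ) / P) - 1 with hg
  have hP0 : (P : ℝ) ≠ 0 := Nat.cast_ne_zero.2 (NeZero.ne P)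
  have havg : ∀ x, ∑ r, f r x = P * g x := by
    intro x
    have e : ∀ r, f r x
        = 2 * (if (labelSum u x + r).val < k (profile J x) then (1 : ℝ) else 0) - 1 := by
      intro r; simp only [f]; split_ifs <;> norm_num
    simp only [e, sum_sub_distrib, ← mul_sum, sum_shift_ind _ (hkP _), sum_const, card_univ,
      ZMod.card, nsmul_eq_mul, hcast, hg]
    field_simp
  have hlvl : ∑ r, lvl1 (f r) = P * lvl1 g := by
    unfold lvl1
    rw [← mean_sum', ← mean_mul_left']
    congr 1
    funext x
    rw [← sum_mul, havg, mul_assoc]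
  obtain ⟨r, _, hr⟩ := exists_le_of_sum_le (univ_nonempty : (univ : Finset (ZMod P)).Nonempty)
    (f := fun _ => lvl1 g) (g := fun r => lvl1 (f r))
    (by rw [sum_const, card_univ, ZMod.card, nsmul_eq_mul, hlvl])
  refine ⟨f r, fun x => ?_, ?_, hr⟩
  · simp only [f]; split_ifs <;> simp
  · let e : (Fin q → Option (Fin (b + 1))) → ZMod P → ℝ :=
      fun A l => (if (l + r).val < k A then (1 : ℝ) else 0) - (kk A : ℝ) / P
    have he : ∀ A, ∑ l, e A l = 0 := by
      intro A
      have : ∀ l : ZMod P, l + r = r + l := fun l => add_comm l r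
      simp only [e, this, sum_sub_distrib, sum_shift_ind _ (hkP A), sum_const, card_univ,
        ZMod.card, nsmul_eq_mul, hcast]
      field_simp
      ring
    have hR := (degLE_interaction D J u hu e he).mono' (le_max_left (q * D) (Dq * b))
    have hK : DegLE (max (q * D) (Dq * b))
        (fun x : Fin q × Fin b → Bool => (kk (profile J x) : ℝ)) := by
      simp only [hkk, Int.cast_sum]
      refine DegLE.sum' _ _ fun I hI => ?_
      refine DegLE.of_junta' (I ×ˢ univ) ?_ fun x y hxy => ?_
      · rw [card_product, card_univ, Fintype.card_fin]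
        exact (Nat.mul_le_mul_right b (mem_filter.1 hI).2).trans (le_max_right _ _)
      · rw [hc I (profile J x) (profile J y)]
        intro i hi
        have : blockOf x i = blockOf y i :=
          funext fun j => hxy (i, j) (mem_product.2 ⟨hi, mem_univ j⟩)
        simp only [profile, this]
    have hfr : f r = fun x => (2 / (P : ℝ) * (kk (profile J x) : ℝ) - 1)
        + 2 * e (profile J x) (labelSum u x) := by
      funext x
      simp only [f, e]
      split_ifs <;> ring
    rw [hfr]
    exact DegLE.add' (DegLE.sub' (DegLE.smul' _ hK) (DegLE.const' 1)) (DegLE.smul' _ hR)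

end Vale.Agent.P047D
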